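import Crest.Agent.R323.Defs

/-! Row 323: closure properties of single-fold Diophantine relations. -/

set_option autoImplicit false

namespace Crest.Agent.R323

variable {α β γ : Type}

namespace IP

theorem reindex (e : α → γ) {f : (α → ℕ) → ℤ} (h : IsPoly f) :
    IsPoly fun v : γ → ℕ => f fun i => v (e i) := by
  induction h with
  | proj i => exact .proj _
  | const n => exact .const n
  | sub _ _ h1 h2 => exact h1.sub h2
  | mul _ _ h1 h2 => exact h1.mul h2

theorem add {f g : (α → ℕ) → ℤ} (hf : IsPoly f) (hg : IsPoly g) : IsPoly fun v => f v + g v :=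
  hf.add hg

theorem pow {f : (α → ℕ) → ℤ} (hf : IsPoly f) (n : ℕ) : IsPoly fun v => f v ^ n := by
  induction n with
  | zero => simpa using IsPoly.const 1
  | succ n ih => simpa only [pow_succ] using ih.mul hf

theorem sum {ι : Type*} (s : Finset ι) {f : ι → (α → ℕ) → ℤ} (hf : ∀ i, IsPoly (f i)) :
    IsPoly fun v => ∑ i ∈ s, f i v := by
  classical
  induction s using Finset.induction_on with
  | empty => simpa using IsPoly.const 0
  | insert a s ha ih => simpa only [Finset.sum_insert ha] using add (hf a) ih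

theorem prod {ι : Type*} (s : Finset ι) {f : ι → (α → ℕ) → ℤ} (hf : ∀ i, IsPoly (f i)) :
    IsPoly fun v => ∏ i ∈ s, f i v := by
  classical
  induction s using Finset.induction_on with
  | empty => simpa using IsPoly.const 1
  | insert a s ha ih => simpa only [Finset.prod_insert ha] using (hf a).mul ih

end IP

variable {R R' : (α → ℕ) → Prop} {f g : (α → ℕ) → ℕ}

theorem SF.congr (h : SF R) (e : ∀ a, R a ↔ R' a) : SF R' := by
  obtain rfl : R = R' := funext fun a => propext (e a)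
  exact h

theorem SF.poly {p : (α → ℕ) → ℤ} (h : IsPoly p) : SF fun a => p a = 0 :=
  ⟨Empty, inferInstance, _, IP.reindex Sum.inl h, fun _ =>
    ⟨⟨fun h => ⟨Empty.elim, h⟩, fun ⟨_, h⟩ => h⟩, fun _ _ _ _ => Subsingleton.elim _ _⟩⟩

theorem SF.reindex (e : α → γ) (h : SF R) : SF fun v : γ → ℕ => R fun i => v (e i) := by
  obtain ⟨β, _, p, hp, h⟩ := h
  refine ⟨β, inferInstance, _, IP.reindex (Sum.map e id) hp, fun a => ?_⟩
  have : ∀ w : β → ℕ, (fun i => Sum.elim a w (Sum.map e id i)) =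
      Sum.elim (fun i => a (e i)) w := fun w => by
    funext i; cases i <;> rfl
  simp only [this]
  exact h _

theorem SF.and (h : SF R) (h' : SF R') : SF fun a => R a ∧ R' a := by
  obtain ⟨β, _, p, hp, h⟩ := h
  obtain ⟨β', _, p', hp', h'⟩ := h'
  refine ⟨β ⊕ β', inferInstance, _, IP.add (IP.pow (IP.reindex (Sum.map id Sum.inl) hp) 2)
    (IP.pow (IP.reindex (Sum.map id Sum.inr) hp') 2), fun a => ?_⟩
  have e : ∀ w : β ⊕ β' → ℕ, (p (fun i => Sum.elim a w (Sum.map id Sum.inl i)) ^ 2 +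
      p' (fun i => Sum.elim a w (Sum.map id Sum.inr i)) ^ 2 = 0) ↔
      p (Sum.elim a fun b => w (.inl b)) = 0 ∧ p' (Sum.elim a fun b => w (.inr b)) = 0 :=
    fun w => by
      rw [add_eq_zero_iff_of_nonneg (sq_nonneg _) (sq_nonneg _), sq_eq_zero_iff, sq_eq_zero_iff]
      congr! 3 <;> funext i <;> cases i <;> rfl
  simp only [e]
  refine ⟨⟨fun ⟨h1, h2⟩ => ?_, fun ⟨w, h1, h2⟩ => ⟨(h a).1.2 ⟨_, h1⟩, (h' a).1.2 ⟨_, h2⟩⟩⟩,
    fun w w' h1 h2 => ?_⟩
  · obtain ⟨w, hw⟩ := (h a).1.1 h1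
    obtain ⟨w', hw'⟩ := (h' a).1.1 h2
    exact ⟨Sum.elim w w', hw, hw'⟩
  · funext i
    cases i
    exacts [congrFun ((h a).2 _ _ h1.1 h2.1) _, congrFun ((h' a).2 _ _ h1.2 h2.2) _]

theorem SF.or (h : SF R) (h' : SF R') (hd : ∀ a, R a → R' a → False) :
    SF fun a => R a ∨ R' a := by
  obtain ⟨β, _, p, hp, h⟩ := h
  obtain ⟨β', _, p', hp', h'⟩ := h'
  have := Fintype.ofFinite β
  have := Fintype.ofFinite β'
  refine ⟨β ⊕ β', inferInstance, _, (IP.add (IP.pow (IP.reindex (Sum.map id Sum.inl) hp) 2)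
    (IP.sum Finset.univ fun b => .proj (Sum.inr (Sum.inr b)))).mul
    (IP.add (IP.pow (IP.reindex (Sum.map id Sum.inr) hp') 2)
    (IP.sum Finset.univ fun b => .proj (Sum.inr (Sum.inl b)))), fun a => ?_⟩
  have e0 : ∀ {δ : Type} [Fintype δ] (x : ℤ) (u : δ → ℕ), x ^ 2 + ∑ b, (u b : ℤ) = 0 ↔
      x = 0 ∧ u = 0 := fun x u => by
    rw [add_eq_zero_iff_of_nonneg (sq_nonneg _) (by positivity), sq_eq_zero_iff,
      Finset.sum_eq_zero_iff_of_nonneg fun _ _ => by positivity]
    simp [funext_iff]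
  have e : ∀ w : β ⊕ β' → ℕ, ((p (fun i => Sum.elim a w (Sum.map id Sum.inl i)) ^ 2 +
      ∑ b, ((Sum.elim a w (Sum.inr (Sum.inr b)) : ℕ) : ℤ)) *
      (p' (fun i => Sum.elim a w (Sum.map id Sum.inr i)) ^ 2 +
        ∑ b, ((Sum.elim a w (Sum.inr (Sum.inl b)) : ℕ) : ℤ)) = 0) ↔
      (p (Sum.elim a fun b => w (.inl b)) = 0 ∧ (fun b => w (.inr b)) = 0) ∨
        (p' (Sum.elim a fun b => w (.inr b)) = 0 ∧ (fun b => w (.inl b)) = 0) := fun w => by
    rw [mul_eq_zero, e0, e0]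
    congr! 4 <;> funext i <;> cases i <;> rfl
  simp only [e]
  refine ⟨⟨?_, ?_⟩, fun w w' h1 h2 => ?_⟩
  · rintro (h1 | h1)
    · obtain ⟨w, hw⟩ := (h a).1.1 h1
      exact ⟨Sum.elim w 0, Or.inl ⟨hw, rfl⟩⟩
    · obtain ⟨w, hw⟩ := (h' a).1.1 h1
      exact ⟨Sum.elim 0 w, Or.inr ⟨hw, rfl⟩⟩
  · rintro ⟨w, h1 | h1⟩
    exacts [Or.inl ((h a).1.2 ⟨_, h1.1⟩), Or.inr ((h' a).1.2 ⟨_, h1.1⟩)]
  · rcases h1 with h1 | h1 <;> rcases h2 with h2 | h2
    · funext i
      cases i
      exacts [congrFun ((h a).2 _ _ h1.1 h2.1) _, congrFun (h1.2.trans h2.2.symm) _]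
    · exact (hd a ((h a).1.2 ⟨_, h1.1⟩) ((h' a).1.2 ⟨_, h2.1⟩)).elim
    · exact (hd a ((h a).1.2 ⟨_, h2.1⟩) ((h' a).1.2 ⟨_, h1.1⟩)).elim
    · funext i
      cases i
      exacts [congrFun (h1.2.trans h2.2.symm) _, congrFun ((h' a).2 _ _ h1.1 h2.1) _]

/-- Existential quantification over a unique finite vector. -/
theorem SF.exv [Finite β] {S : (β → ℕ) → (α → ℕ) → Prop}
    (h : SF fun v : α ⊕ β → ℕ => S (fun b => v (.inr b)) fun i => v (.inl i))
    (hu : ∀ a w w', S w a → S w' a → w = w') : SF fun a => ∃ w, S w a := by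
  obtain ⟨δ, _, p, hp, h⟩ := h
  refine ⟨β ⊕ δ, inferInstance, _, IP.reindex (Equiv.sumAssoc α β δ) hp, fun a => ?_⟩
  have e : ∀ w : β ⊕ δ → ℕ, (fun i => Sum.elim a w (Equiv.sumAssoc α β δ i)) =
      Sum.elim (Sum.elim a fun b => w (.inl b)) fun d => w (.inr d) := fun w => by
    funext i; rcases i with (i | i) | i <;> rfl
  simp only [e]
  refine ⟨⟨fun ⟨w, hw⟩ => ?_, fun ⟨w, hw⟩ => ⟨_, (h _).1.2 ⟨_, hw⟩⟩⟩, fun w w' h1 h2 => ?_⟩
  · obtain ⟨d, hd⟩ := (h (Sum.elim a w)).1.1 hw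
    exact ⟨Sum.elim w d, hd⟩
  · have e1 := hu a _ _ ((h _).1.2 ⟨_, h1⟩) ((h _).1.2 ⟨_, h2⟩)
    change (fun b => w (.inl b)) = fun b => w' (.inl b) at e1
    rw [← e1] at h2
    funext i
    cases i
    exacts [congrFun e1 _, congrFun ((h _).2 _ _ h1 h2) _]

/-- Existential quantification over a unique number. -/
theorem SF.ex {S : ℕ → (α → ℕ) → Prop}
    (h : SF fun v : Option α → ℕ => S (v none) fun i => v (some i))
    (hu : ∀ a x y, S x a → S y a → x = y) : SF fun a => ∃ x, S x a :=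
  (SF.exv (β := Unit) (S := fun w a => S (w ()) a)
    (h.reindex fun o => o.elim (Sum.inr ()) Sum.inl)
    fun a _ _ h1 h2 => funext fun _ => hu a _ _ h1 h2).congr fun _ =>
      ⟨fun ⟨_, h⟩ => ⟨_, h⟩, fun ⟨x, h⟩ => ⟨fun _ => x, h⟩⟩

theorem SF.forall {ι : Type} [Finite ι] {S : ι → (α → ℕ) → Prop} (h : ∀ i, SF (S i)) :
    SF fun a => ∀ i, S i a := by
  classical
  have := Fintype.ofFinite ι
  have key : ∀ s : Finset ι, SF fun a => ∀ i ∈ s, S i a := fun s => by
    induction s using Finset.induction_on with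
    | empty => exact (SF.poly (.const 0)).congr (by simp)
    | insert a s _ ih => exact ((h a).and ih).congr (by simp)
  exact (key Finset.univ).congr (by simp)

theorem SFn.reindex (e : α → γ) (h : SFn f) : SFn fun v : γ → ℕ => f fun i => v (e i) :=
  SF.reindex (Option.map e) h

/-- Weakening by one variable. -/
theorem SFn.up (h : SFn f) : SFn fun v : Option α → ℕ => f fun i => v (some i) := h.reindex some

/-- Weakening by one variable. -/
theorem SF.up (h : SF R) : SF fun v : Option α → ℕ => R fun i => v (some i) := h.reindex some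

theorem SFn.congr (h : SFn f) (e : ∀ a, f a = g a) : SFn g := by
  obtain rfl : f = g := funext e
  exact h

theorem SFn.of_graph {S : ℕ → (α → ℕ) → Prop}
    (h : SF fun v : Option α → ℕ => S (v none) fun i => v (some i))
    (e : ∀ a x, S x a ↔ x = g a) : SFn g := SF.congr h fun _ => e _ _

/-- Substitution of functions for the variables. -/
theorem SF.subst [Finite γ] {S : (γ → ℕ) → Prop} (h : SF S) {u : γ → (α → ℕ) → ℕ}
    (hu : ∀ c, SFn (u c)) : SF fun a => S fun c => u c a :=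
  (SF.exv (β := γ) (S := fun w a => S w ∧ ∀ c, w c = u c a)
    ((h.reindex Sum.inr).and (SF.forall fun c =>
      SF.reindex (fun o : Option α => o.elim (Sum.inr c) Sum.inl) (hu c)))
    fun _ _ _ h1 h2 => funext fun c => (h1.2 c).trans (h2.2 c).symm).congr fun _ =>
      ⟨fun ⟨_, h1, h2⟩ => funext h2 ▸ h1, fun h => ⟨_, h, fun _ => rfl⟩⟩

theorem SFn.proj (i : α) : SFn fun v : α → ℕ => v i :=
  (SF.poly ((IsPoly.proj none).sub (.proj (some i)))).congr fun _ => by
    beta_reduce; omega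

theorem SFn.subst [Finite γ] {F : (γ → ℕ) → ℕ} (h : SFn F) {u : γ → (α → ℕ) → ℕ}
    (hu : ∀ c, SFn (u c)) : SFn fun a => F fun c => u c a :=
  SF.subst h (u := fun o v => o.elim (v none) fun c => u c fun i => v (some i))
    fun o => by cases o; exacts [SFn.proj _, (hu _).up]

/-- Substitution of a function for the new variable. -/
theorem SF.let {S : ℕ → (α → ℕ) → Prop}
    (h : SF fun v : Option α → ℕ => S (v none) fun i => v (some i)) (hf : SFn f) :
    SF fun a => S (f a) a :=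
  (SF.ex (S := fun x a => S x a ∧ x = f a) (h.and hf)
    fun _ _ _ h1 h2 => h1.2.trans h2.2.symm).congr fun _ =>
      ⟨fun ⟨_, h1, h2⟩ => h2 ▸ h1, fun h => ⟨_, h, rfl⟩⟩

theorem SF2.comp {F : ℕ → ℕ → ℕ} (h : SF2 F) (hf : SFn f) (hg : SFn g) :
    SFn fun a => F (f a) (g a) :=
  SFn.subst h (u := ![f, g]) fun c => by fin_cases c; exacts [hf, hg]

/-- A binary relation applied to functions. -/
theorem SF.comp2 {S : ℕ → ℕ → Prop} (h : SF fun v : Fin 2 → ℕ => S (v 0) (v 1)) (hf : SFn f)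
    (hg : SFn g) : SF fun a => S (f a) (g a) :=
  SF.subst h (u := ![f, g]) fun c => by fin_cases c; exacts [hf, hg]

theorem SFn.natAbs {p : (α → ℕ) → ℤ} (h : IsPoly p) : SFn fun a => (p a).natAbs :=
  (SF.poly ((IP.pow (IsPoly.proj none) 2).sub (IP.pow (IP.reindex some h) 2))).congr fun v => by
    rw [sub_eq_zero, sq_eq_sq_iff_abs_eq_abs, Int.abs_eq_natAbs, Int.abs_eq_natAbs,
      Int.natAbs_natCast, Nat.cast_inj]

theorem SFn.const (n : ℕ) : SFn fun _ : α → ℕ => n := SFn.natAbs (.const n)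

theorem SFn.add (hf : SFn f) (hg : SFn g) : SFn fun a => f a + g a :=
  SF2.comp (F := (· + ·)) (SFn.natAbs (IP.add (.proj 0) (.proj 1))) hf hg

theorem SFn.mul (hf : SFn f) (hg : SFn g) : SFn fun a => f a * g a :=
  SF2.comp (F := (· * ·)) ((SFn.natAbs ((IsPoly.proj 0).mul (.proj 1))).congr fun _ => by
    simp [Int.natAbs_mul]) hf hg

theorem SFn.npow (hf : SFn f) (n : ℕ) : SFn fun a => f a ^ n := by
  induction n with
  | zero => simpa using SFn.const 1
  | succ n ih => simpa only [pow_succ] using ih.mul hf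

theorem SF.eq (hf : SFn f) (hg : SFn g) : SF fun a => f a = g a :=
  SF.comp2 (S := (· = ·)) ((SF.poly ((IsPoly.proj 0).sub (.proj 1))).congr fun _ => by omega)
    hf hg

theorem SF.le (hf : SFn f) (hg : SFn g) : SF fun a => f a ≤ g a :=
  (SF.ex (S := fun x a => f a + x = g a) (SF.eq (hf.up.add (.proj _)) hg.up)
    fun _ _ _ h1 h2 => by omega).congr fun _ => ⟨fun ⟨_, h⟩ => by omega, fun h => ⟨_, Nat.add_sub_of_le h⟩⟩

theorem SF.lt (hf : SFn f) (hg : SFn g) : SF fun a => f a < g a := SF.le (hf.add (.const 1)) hg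

theorem SF.ne (hf : SFn f) (hg : SFn g) : SF fun a => f a ≠ g a :=
  ((SF.lt hf hg).or (SF.lt hg hf) fun _ => by omega).congr fun _ => by omega

theorem SFn.ite [∀ a, Decidable (R a)] (h : SF R) (h' : SF fun a => ¬R a) (hf : SFn f)
    (hg : SFn g) : SFn fun a => if R a then f a else g a :=
  SFn.of_graph (S := fun x a => (R a ∧ x = f a) ∨ (¬R a ∧ x = g a))
    ((h.up.and hf).or (h'.up.and hg) fun _ h1 h2 => h2.1 h1.1) fun a x => by
      by_cases h : R a <;> simp [h]

theorem SFn.sub (hf : SFn f) (hg : SFn g) : SFn fun a => f a - g a :=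
  SFn.of_graph (S := fun x a => (f a ≤ g a ∧ x = 0) ∨ (g a < f a ∧ x + g a = f a))
    (((SF.le hf hg).up.and (SF.eq (.proj _) (.const 0))).or
      ((SF.lt hg hf).up.and (SF.eq ((SFn.proj _).add hg.up) hf.up)) fun _ => by omega)
    fun _ _ => by omega

theorem SFn.div (hf : SFn f) (hg : SFn g) : SFn fun a => f a / g a :=
  SFn.of_graph (S := fun x a => (g a = 0 ∧ x = 0) ∨ (x * g a ≤ f a ∧ f a < (x + 1) * g a))
    (((SF.eq hg (.const 0)).up.and (SF.eq (.proj _) (.const 0))).or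
      ((SF.le ((SFn.proj _).mul hg.up) hf.up).and
        (SF.lt hf.up (((SFn.proj _).add (.const 1)).mul hg.up)))
      fun _ h1 h2 => by simp [h1.1] at h2)
    fun a x => by
      rcases Nat.eq_zero_or_pos (g a) with h | h
      · simp [h]
      · rw [← Nat.le_div_iff_mul_le h, ← Nat.div_lt_iff_lt_mul h]; omega

theorem SFn.mod (hf : SFn f) (hg : SFn g) : SFn fun a => f a % g a :=
  (hf.sub (hg.mul (hf.div hg))).congr fun _ => (Nat.mod_def _ _).symm

theorem SF.dvd (hf : SFn f) (hg : SFn g) : SF fun a => f a ∣ g a :=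
  (SF.eq (hg.mod hf) (.const 0)).congr fun _ => (Nat.dvd_iff_mod_eq_zero ..).symm

theorem SF.coprime (hf : SFn f) (hg : SFn g) : SF fun a => (f a).Coprime (g a) := by
  refine (((SF.eq hg (.const 0)).and (SF.eq hf (.const 1))).or
    (SF.ex (S := fun u a => u < g a ∧ f a * u % g a = 1 % g a)
      ((SF.lt (.proj _) hg.up).and (SF.eq ((hf.up.mul (.proj _)).mod hg.up)
        ((SFn.const 1).mod hg.up))) fun a x y h1 h2 => ?_)
      fun _ h1 ⟨_, h2, _⟩ => by omega).congr fun a => ⟨?_, fun h => ?_⟩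
  · have hc : (f a).Coprime (g a) := Nat.coprime_of_mul_modEq_one x h1.2
    exact Nat.ModEq.eq_of_lt_of_lt
      (Nat.ModEq.cancel_left_of_coprime hc.symm (h1.2.trans h2.2.symm)) h1.1 h2.1
  · rintro (⟨h1, h2⟩ | ⟨u, -, h⟩)
    · simp [h1, h2]
    · exact Nat.coprime_of_mul_modEq_one u h
  · rcases Nat.eq_zero_or_pos (g a) with h0 | h0
    · exact Or.inl ⟨h0, by simpa [h0] using h⟩
    · obtain ⟨u, hu⟩ := Nat.exists_mul_mod_eq_of_coprime 1 h h0.ne'
      exact Or.inr ⟨u, hu⟩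

theorem SFn.gcd (hf : SFn f) (hg : SFn g) : SFn fun a => (f a).gcd (g a) :=
  SFn.of_graph (S := fun x a => (x ∣ f a ∧ x ∣ g a) ∧ (x = 0 ∨ (f a / x).Coprime (g a / x)))
    (((SF.dvd (.proj _) hf.up).and (SF.dvd (.proj _) hg.up)).and
      ((SF.eq (.proj _) (.const 0)).or (SF.coprime (hf.up.div (.proj _)) (hg.up.div (.proj _)))
        fun _ h1 h2 => by simp [h1] at h2))
    fun a x => by
      constructor
      · rintro ⟨⟨⟨u, h1⟩, v, h2⟩, h⟩
        rcases Nat.eq_zero_or_pos x with rfl | h0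
        · simp [h1, h2]
        · rw [h1, h2, Nat.mul_div_cancel_left _ h0, Nat.mul_div_cancel_left _ h0] at h
          rw [h1, h2, Nat.gcd_mul_left, (h.resolve_left h0.ne').gcd_eq_one, mul_one]
      · rintro rfl
        refine ⟨⟨Nat.gcd_dvd_left _ _, Nat.gcd_dvd_right _ _⟩, ?_⟩
        exact (Nat.eq_zero_or_pos _).imp id fun h => Nat.coprime_div_gcd_div_gcd h

/-- Decomposes goals `SF _` and `SFn _` built from arithmetic. -/
macro "sf" : tactic => `(tactic| repeat' with_reducible first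
  | assumption | exact SFn.proj _ | exact SFn.const _ | apply SF.and | apply SF.eq | apply SF.le
  | apply SF.lt | apply SF.ne | apply SF.dvd | apply SF.coprime | apply SFn.add | apply SFn.mul
  | apply SFn.npow | apply SFn.sub | apply SFn.div | apply SFn.mod | apply SFn.gcd)

example : SF fun v : Option (Fin 3) → ℕ =>
    v none * v none + 3 = v (some 1) ^ 2 % (v (some 0) - 1) ∧ v (some 2) / 2 < 7 := by sf

end Crest.Agent.R323
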