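import Crest.Agent.R323.Basic

/-! Row 323: binomial coefficients and factorials are single-fold Diophantine. -/

set_option autoImplicit false
open Finset

namespace Crest.Agent.R323

namespace Bin

theorem sum_lt {u : ℕ} {a : ℕ → ℕ} (n : ℕ) (h : ∀ k < n, a k < u) :
    ∑ k ∈ range n, a k * u ^ k < u ^ n := by
  induction n with
  | zero => simp
  | succ n ih =>
    have h1 := ih fun k hk => h k (by omega)
    have h2 := h n (by omega)
    rw [sum_range_succ, pow_succ]
    nlinarith [Nat.mul_le_mul_right (u ^ n) (Nat.succ_le_of_lt h2)]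

theorem digit {u : ℕ} {a : ℕ → ℕ} {N n : ℕ} (h : ∀ k < N, a k < u) (hn : n < N) :
    (∑ k ∈ range N, a k * u ^ k) / u ^ n % u = a n := by
  obtain ⟨m, rfl⟩ : ∃ m, N = n + (1 + m) := ⟨N - n - 1, by omega⟩
  have hu : 0 < u := lt_of_le_of_lt (Nat.zero_le _) (h n hn)
  have e : ∑ k ∈ range (n + (1 + m)), a k * u ^ k = ∑ k ∈ range n, a k * u ^ k +
      u ^ n * (a n + u * ∑ k ∈ range m, a (n + (1 + k)) * u ^ k) := by
    rw [sum_range_add, sum_range_add, mul_add, mul_sum, mul_sum]
    congr 2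
    · simp [mul_comm]
    · exact sum_congr rfl fun k _ => by ring
  rw [e, Nat.add_mul_div_left _ _ (by positivity),
    Nat.div_eq_of_lt (sum_lt n fun k hk => h k (by omega)), zero_add, Nat.add_mul_mod_self_left,
    Nat.mod_eq_of_lt (h n hn)]

theorem choose_eq (r n : ℕ) : r.choose n = (2 ^ r + 1 + 1) ^ r / (2 ^ r + 1) ^ n % (2 ^ r + 1) := by
  have e : (2 ^ r + 1 + 1) ^ r = ∑ k ∈ range (r + 1 + n), r.choose k * (2 ^ r + 1) ^ k := by
    rw [sum_range_add, add_pow, sum_eq_zero (s := range n) fun k _ => by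
      rw [Nat.choose_eq_zero_of_lt (by omega), zero_mul]]
    simp [mul_comm]
  rw [e, digit (fun k _ => Nat.lt_succ_of_le (Nat.choose_le_two_pow r k)) (by omega)]

theorem factorial_eq' {r n : ℕ} (h : (n.factorial + 1) * n ^ 2 < r) (hn : n ≤ r) :
    n.factorial = r ^ n / r.choose n := by
  have h0 : 0 < r.choose n := Nat.choose_pos hn
  have h1 := Nat.descFactorial_eq_factorial_mul_choose r n
  symm
  refine Nat.div_eq_of_lt_le (h1 ▸ Nat.descFactorial_le_pow r n) ?_
  have h2 : (r - n) ^ n ≤ r.descFactorial n :=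
    (Nat.pow_le_pow_left (by omega) _).trans (Nat.pow_sub_le_descFactorial r n)
  have hr : (0 : ℝ) < r := by exact_mod_cast (by omega : 0 < r)
  have hn' : (n : ℝ) ≤ r := by exact_mod_cast hn
  have h3 : 1 + n * (-(n / r) : ℝ) ≤ (1 + -(n / r : ℝ)) ^ n := one_add_mul_le_pow (by
    have : (n : ℝ) / r ≤ 1 := (div_le_one hr).2 hn'
    linarith) n
  have h4 : (r : ℝ) ^ n * (r - n ^ 2) ≤ r * (r - n) ^ n := by
    rw [show (1 + -(n / r : ℝ)) = (r - n) / r by field_simp; ring, div_pow,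
      le_div_iff₀ (by positivity)] at h3
    have : (r : ℝ) ^ n * (r - n ^ 2) = r * ((1 + n * -(n / r : ℝ)) * r ^ n) := by
      field_simp; ring
    rw [this]; gcongr
  have h5 : ((r : ℝ) - n) ^ n ≤ n.factorial * r.choose n := by
    rw [h1] at h2
    rw [← Nat.cast_sub hn]; exact_mod_cast h2
  have h6 : ((n.factorial : ℝ) + 1) * n ^ 2 < r := by exact_mod_cast h
  have h7 : (0 : ℝ) < n.factorial := by positivity
  have h8 : (r : ℝ) ^ n < (n.factorial + 1) * r.choose n := by
    have h9 : (0 : ℝ) < r ^ n := by positivity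
    have h10 : (r : ℝ) * n.factorial < (n.factorial + 1) * (r - n ^ 2) := by linarith
    have h11 : (r : ℝ) ^ n * (r * n.factorial) < (n.factorial + 1) * (r * (n.factorial *
        r.choose n)) :=
      calc _ < (r : ℝ) ^ n * ((n.factorial + 1) * (r - n ^ 2)) := by gcongr
        _ = (n.factorial + 1) * (r ^ n * (r - n ^ 2)) := by ring
        _ ≤ _ := mul_le_mul_of_nonneg_left (h4.trans (by gcongr)) (by positivity)
    have h12 : (0 : ℝ) < r * n.factorial := by positivity
    nlinarith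
  exact_mod_cast h8

theorem factorial_eq (n : ℕ) :
    n.factorial = ((n + 1) ^ (n + 3)) ^ n / ((n + 1) ^ (n + 3)).choose n := by
  have h1 : n.factorial ≤ (n + 1) ^ n :=
    (Nat.factorial_le_pow n).trans (Nat.pow_le_pow_left (by omega) _)
  have h2 : 1 ≤ (n + 1) ^ n := Nat.one_le_pow _ _ (by omega)
  have e : (n + 1) ^ (n + 3) = (n + 1) ^ n * (n + 1) ^ 3 := pow_add _ _ _
  refine factorial_eq' ?_ ?_
  · rcases Nat.eq_zero_or_pos n with rfl | hn
    · simp
    · calc _ ≤ (2 * (n + 1) ^ n) * n ^ 2 := by gcongr; omega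
        _ = (n + 1) ^ n * (2 * n ^ 2) := by ring
        _ < _ := by rw [e]; gcongr; nlinarith
  · rw [e]; nlinarith [Nat.zero_le (n ^ 2), Nat.zero_le (n ^ 3)]

end Bin

theorem SFn.pow {α : Type} {f g : (α → ℕ) → ℕ} (h : PowStmt) (hf : SFn f) (hg : SFn g) :
    SFn fun a => f a ^ g a := SF2.comp h hf hg

theorem bin (h : PowStmt) : BinStmt := by
  have hc : SF2 Nat.choose := by
    have h2 : SFn fun v : Fin 2 → ℕ => 2 ^ v 0 + 1 :=
      (SFn.pow h (.const 2) (.proj 0)).add (.const 1)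
    exact (((SFn.pow h (h2.add (.const 1)) (.proj 0)).div (SFn.pow h h2 (.proj 1))).mod h2).congr
      fun v => (Bin.choose_eq _ _).symm
  have h3 : SFn fun v : Fin 2 → ℕ => (v 0 + 1) ^ (v 0 + 3) :=
    SFn.pow h ((SFn.proj 0).add (.const 1)) ((SFn.proj 0).add (.const 3))
  exact ⟨hc, ((SFn.pow h h3 (.proj 0)).div (hc.comp h3 (.proj 0))).congr
    fun v => (Bin.factorial_eq _).symm⟩

end Crest.Agent.R323
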