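import Crest.Agent.R323.Basic

/-! Row 323, task Q: bounded universal quantifiers (Davis–Putnam–Robinson, single-fold). -/

set_option autoImplicit false

namespace Crest.Agent.R323

open Finset

namespace BQ

theorem modEq {γ : Type} {f : (γ → ℕ) → ℤ} (h : IsPoly f) {q : ℕ} {v v' : γ → ℕ}
    (e : ∀ i, v i ≡ v' i [MOD q]) : f v ≡ f v' [ZMOD q] := by
  induction h with
  | proj i => exact Int.natCast_modEq_iff.2 (e i)
  | const n => rfl
  | sub _ _ h1 h2 => exact h1.sub h2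
  | mul _ _ h1 h2 => exact h1.mul h2

theorem major {γ : Type} {f : (γ → ℕ) → ℤ} (h : IsPoly f) :
    ∃ g, SFn g ∧ ∀ v v', (∀ i, v i ≤ v' i) → (f v).natAbs ≤ g v' := by
  induction h with
  | proj i => exact ⟨_, .proj i, fun _ _ h => h i⟩
  | const n => exact ⟨_, .const n.natAbs, fun _ _ _ => le_rfl⟩
  | sub _ _ h1 h2 =>
    obtain ⟨g, a1, a2⟩ := h1
    obtain ⟨g', b1, b2⟩ := h2
    exact ⟨_, a1.add b1, fun v v' h =>
      (Int.natAbs_sub_le _ _).trans (add_le_add (a2 v v' h) (b2 v v' h))⟩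
  | mul _ _ h1 h2 =>
    obtain ⟨g, a1, a2⟩ := h1
    obtain ⟨g', b1, b2⟩ := h2
    exact ⟨_, a1.mul b1, fun v v' h =>
      (Int.natAbs_mul _ _).trans_le (Nat.mul_le_mul (a2 v v' h) (b2 v v' h))⟩

/-- The moduli. -/
def mm (T i : ℕ) : ℕ := T.factorial ^ 2 / (i + 1) - 1

section
variable {T i : ℕ} (h3 : 3 ≤ T) (hi : i < T)
include h3 hi

theorem mm_spec : ∃ k, 0 < k ∧ mm T i + 1 = T.factorial * k ∧
    (i + 1) * (mm T i + 1) = T.factorial ^ 2 := by
  obtain ⟨k, hk⟩ := Nat.dvd_factorial (Nat.succ_pos i) hi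
  have h0 : 0 < k := Nat.pos_of_mul_pos_left (hk ▸ T.factorial_pos)
  have e : T.factorial ^ 2 / (i + 1) = T.factorial * k :=
    Nat.div_eq_of_eq_mul_right (Nat.succ_pos i) (by rw [sq]; nth_rw 2 [hk]; simp only [Nat.succ_eq_add_one]; ring)
  have := Nat.mul_pos T.factorial_pos h0
  have e2 : mm T i + 1 = T.factorial * k := by rw [mm, e]; omega
  refine ⟨k, h0, e2, ?_⟩
  rw [e2, sq]; nth_rw 3 [hk]; simp only [Nat.succ_eq_add_one]; ring

theorem one_lt_mm : 1 < mm T i := by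
  obtain ⟨k, h0, h1, -⟩ := mm_spec h3 hi
  have := Nat.self_le_factorial T
  nlinarith

theorem mm_mul : (i + 1) * mm T i = T.factorial ^ 2 - 1 - i ∧ i ≤ T.factorial ^ 2 - 1 := by
  obtain ⟨k, h0, -, h2⟩ := mm_spec h3 hi
  rw [mul_add] at h2
  omega

theorem mm_modEq : T.factorial ^ 2 - 1 ≡ i [MOD mm T i] :=
  ((Nat.modEq_iff_dvd' (mm_mul h3 hi).2).2 ((mm_mul h3 hi).1 ▸ Dvd.intro_left _ rfl)).symm

theorem lt_prime {p : ℕ} (hp : p.Prime) (h : p ∣ mm T i) : T < p := by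
  by_contra hc
  obtain ⟨k, -, h1, -⟩ := mm_spec h3 hi
  have : p ∣ mm T i + 1 := h1 ▸ (Nat.dvd_factorial hp.pos (not_lt.1 hc)).mul_right k
  exact hp.one_lt.ne' (Nat.dvd_one.1 ((Nat.dvd_add_right h).1 this))

theorem mm_coprime {j : ℕ} (hj : j < T) (hij : i ≠ j) : (mm T i).Coprime (mm T j) :=
  Nat.coprime_of_dvd fun p hp h1 h2 => by
    have := lt_prime h3 hi hp h1
    exact hij (Nat.ModEq.eq_of_lt_of_lt (((mm_modEq h3 hi).of_dvd h1).symm.trans
      ((mm_modEq h3 hj).of_dvd h2)) (by omega) (by omega))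

end

theorem choose_eq {T n : ℕ} (h3 : 3 ≤ T) (hn : n ≤ T) :
    (T.factorial ^ 2 - 1).choose n = ∏ i ∈ range n, mm T i := by
  refine Nat.eq_of_mul_eq_mul_left n.factorial_pos ?_
  rw [← Nat.descFactorial_eq_factorial_mul_choose, Nat.descFactorial_eq_prod_range,
    ← prod_range_add_one_eq_factorial n, ← prod_mul_distrib]
  exact prod_congr rfl fun i hi => (mm_mul h3 ((mem_range.1 hi).trans_le hn)).1.symm

theorem prod_dvd {T n x : ℕ} (h3 : 3 ≤ T) (hn : n ≤ T) (h : ∀ i < n, mm T i ∣ x) :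
    ∏ i ∈ range n, mm T i ∣ x := by
  rw [← Int.natCast_dvd_natCast, Nat.cast_prod]
  refine Finset.prod_dvd_of_coprime (fun i hi j hj hij => ?_)
    fun i hi => Int.natCast_dvd_natCast.2 (h i (mem_range.1 hi))
  exact Nat.isCoprime_iff_coprime.2 (mm_coprime h3 ((mem_range.1 hi).trans_le hn)
    ((mem_range.1 hj).trans_le hn) hij)

theorem root {p W D : ℕ} (hp : p.Prime) (h : p ∣ W.descFactorial (D + 1)) :
    ∃ k ≤ D, W ≡ k [MOD p] := by
  rcases le_or_gt W D with h1 | h1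
  · exact ⟨W, h1, rfl⟩
  · rw [Nat.descFactorial_eq_prod_range] at h
    obtain ⟨k, hk, h⟩ := (hp.prime.dvd_finsetProd_iff _).1 h
    have := mem_range.1 hk
    exact ⟨k, by omega, ((Nat.modEq_iff_dvd' (by omega)).2 h).symm⟩

theorem lift {m W D k : ℕ} (h1 : 1 < m) (hk : k ≤ D) (h : m ∣ W.descFactorial (D + 1))
    (hp : ∀ p, p.Prime → p ∣ m → D < p ∧ W ≡ k [MOD p]) : W ≡ k [MOD m] := by
  rcases le_or_gt W D with h2 | h2
  · obtain ⟨a, b⟩ := hp _ (Nat.minFac_prime h1.ne') (Nat.minFac_dvd m)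
    rw [b.eq_of_lt_of_lt (by omega) (by omega)]
  · rw [Nat.descFactorial_eq_prod_range, ← mul_prod_erase _ _ (mem_range.2 (Nat.lt_succ_of_le hk))]
      at h
    refine ((Nat.modEq_iff_dvd' (by omega)).2 (Nat.Coprime.dvd_of_dvd_mul_right
      (Nat.Coprime.prod_right fun j hj => Nat.coprime_of_dvd fun p pp a b => ?_) h)).symm
    obtain ⟨c, d⟩ := hp p pp a
    have hj' := mem_range.1 (mem_of_mem_erase hj)
    exact (mem_erase.1 hj).1 ((((Nat.modEq_iff_dvd' (by omega)).2 b).trans d).eq_of_lt_of_lt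
      (by omega) (by omega))

theorem dvd_desc {m W D k : ℕ} (hk : k ≤ D) (h : W ≡ k [MOD m]) :
    m ∣ W.descFactorial (D + 1) := by
  rw [Nat.descFactorial_eq_prod_range]
  exact (Nat.ModEq.dvd' h.symm).trans (dvd_prod_of_mem _ (mem_range.2 (Nat.lt_succ_of_le hk)))

variable {β : Type} [Fintype β]

/-- The coded form of `∀ i < n, ∃ k, φ i k = 0`. -/
def Cond (φ : ℕ → (β → ℕ) → ℤ) (n T D : ℕ) (W : β → ℕ) : Prop :=
  (∀ b, W b < (T.factorial ^ 2 - 1).choose n ∧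
    (T.factorial ^ 2 - 1).choose n ∣ (D + 1).factorial * (W b).choose (D + 1)) ∧
  (T.factorial ^ 2 - 1).choose n ∣ (φ (T.factorial ^ 2 - 1) W).natAbs ∧
  (D = 0 ∨ (0 < D ∧ ((T.factorial ^ 2 - 1).choose n).gcd (∏ b, ((W b : ℤ) - D)).natAbs ≠ 1))

variable {φ : ℕ → (β → ℕ) → ℤ} {n : ℕ} {T : ℕ → ℕ}
  (hc : ∀ q i i' k k', i ≡ i' [MOD q] → (∀ b, k b ≡ k' b [MOD q]) → φ i k ≡ φ i' k' [ZMOD q])
  (hu : ∀ i k k', φ i k = 0 → φ i k' = 0 → k = k') (hT : ∀ D, n + D + 3 ≤ T D)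
  (hb : ∀ D, ∀ i < n, ∀ k, (∀ b, k b ≤ D) → (φ i k).natAbs ≤ T D)
include hc hu hT hb

theorem sound {D : ℕ} {W : β → ℕ} (h : Cond φ n (T D) D W) {i : ℕ} (hi : i < n) :
    ∃ k, φ i k = 0 ∧ ∀ b, k b ≤ D ∧ W b ≡ k b [MOD mm (T D) i] := by
  have t := hT D
  have h3 : 3 ≤ T D := by omega
  have hi' : i < T D := by omega
  obtain ⟨h1, h2, -⟩ := h
  simp only [← Nat.descFactorial_eq_factorial_mul_choose] at h1
  have hm : mm (T D) i ∣ ((T D).factorial ^ 2 - 1).choose n := by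
    rw [choose_eq h3 (by omega)]; exact dvd_prod_of_mem _ (mem_range.2 hi)
  have key : ∀ p, p.Prime → p ∣ mm (T D) i →
      ∃ k, φ i k = 0 ∧ ∀ b, k b ≤ D ∧ W b ≡ k b [MOD p] := fun p pp hp => by
    choose k hk hk' using fun b => root pp (hp.trans (hm.trans (h1 b).2))
    refine ⟨k, ?_, fun b => ⟨hk b, hk' b⟩⟩
    have e := hc p _ _ _ _ ((mm_modEq h3 hi').of_dvd hp) hk'
    have d : (p : ℤ) ∣ φ i k :=
      e.dvd_iff.1 (Int.natCast_dvd.2 (hp.trans (hm.trans h2)))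
    exact Int.eq_zero_of_dvd_of_natAbs_lt_natAbs d
      ((hb D i hi k hk).trans_lt (lt_prime h3 hi' pp hp))
  have l := one_lt_mm h3 hi'
  obtain ⟨k, k1, k2⟩ := key _ (Nat.minFac_prime l.ne') (Nat.minFac_dvd _)
  refine ⟨k, k1, fun b => ⟨(k2 b).1, lift l (k2 b).1 (hm.trans (h1 b).2) fun p pp hp => ?_⟩⟩
  obtain ⟨k', k3, k4⟩ := key p pp hp
  have := lt_prime h3 hi' pp hp
  exact ⟨by omega, hu i _ _ k1 k3 ▸ (k4 b).2⟩

theorem le_of {D D' : ℕ} {W W' : β → ℕ} (h : Cond φ n (T D) D W) (h' : Cond φ n (T D') D' W') :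
    D ≤ D' := by
  have t := hT D
  have h3 : 3 ≤ T D := by omega
  rcases h.2.2 with h0 | ⟨-, h0⟩
  · omega
  obtain ⟨p, pp, hp⟩ := Nat.exists_prime_and_dvd h0
  obtain ⟨a, b⟩ := Nat.dvd_gcd_iff.1 hp
  rw [choose_eq h3 (by omega)] at a
  obtain ⟨i, hi, a⟩ := (pp.prime.dvd_finsetProd_iff _).1 a
  have hi := mem_range.1 hi
  obtain ⟨j, -, b⟩ := ((Nat.prime_iff_prime_int.1 pp).dvd_finsetProd_iff _).1
    (Int.natCast_dvd.2 b)
  obtain ⟨k, k1, k2⟩ := sound hc hu hT hb h hi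
  obtain ⟨k', k3, k4⟩ := sound hc hu hT hb h' hi
  have l := lt_prime h3 (by omega) pp a
  have := (k2 j).1
  have e : D = k j := ((Nat.modEq_iff_dvd.2 b).trans ((k2 j).2.of_dvd a)).eq_of_lt_of_lt
    (by omega) (by omega)
  rw [e, hu i _ _ k1 k3]
  exact (k4 j).1

theorem uniq {D : ℕ} {W W' : β → ℕ} (h : Cond φ n (T D) D W) (h' : Cond φ n (T D) D W') :
    W = W' := by
  have t := hT D
  have h3 : 3 ≤ T D := by omega
  funext b
  refine Nat.ModEq.eq_of_lt_of_lt ?_ (h.1 b).1 (h'.1 b).1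
  rw [choose_eq h3 (by omega), Nat.modEq_iff_dvd, Int.natCast_dvd]
  refine prod_dvd h3 (by omega) fun i hi => ?_
  obtain ⟨k, k1, k2⟩ := sound hc hu hT hb h hi
  obtain ⟨k', k3, k4⟩ := sound hc hu hT hb h' hi
  rw [← hu i _ _ k1 k3] at k4
  exact Int.natCast_dvd.1 ((k2 b).2.trans (k4 b).2.symm).dvd

theorem complete (h : ∀ i < n, ∃ k, φ i k = 0) : ∃ D W, Cond φ n (T D) D W := by
  classical
  choose! k hk using h
  let D := (range n ×ˢ (univ : Finset β)).sup fun x => k x.1 x.2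
  have hD : ∀ i < n, ∀ b, k i b ≤ D := fun i hi b =>
    le_sup (f := fun x : ℕ × β => k x.1 x.2) (b := (i, b)) (by simpa using hi)
  have t := hT D
  have h3 : 3 ≤ T D := by omega
  have h0 : ∀ i ∈ range n, mm (T D) i ≠ 0 := fun i hi => by
    have := one_lt_mm h3 (i := i) (by have := mem_range.1 hi; omega); omega
  have co : Set.Pairwise (range n : Set ℕ) (Function.onFun Nat.Coprime (mm (T D))) :=
    fun i hi j hj hij => mm_coprime h3 (by have := mem_range.1 hi; omega)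
      (by have := mem_range.1 hj; omega) hij
  let W := fun b => (Nat.chineseRemainderOfFinset (fun i => k i b) (mm (T D)) _ h0 co).1
  have hW : ∀ i < n, ∀ b, W b ≡ k i b [MOD mm (T D) i] := fun i hi b =>
    (Nat.chineseRemainderOfFinset (fun i => k i b) (mm (T D)) _ h0 co).2 i (mem_range.2 hi)
  refine ⟨D, W, ?_⟩
  rw [Cond, choose_eq h3 (by omega)]
  refine ⟨fun b => ⟨Nat.chineseRemainderOfFinset_lt_prod _ _ h0 co, ?_⟩,
    prod_dvd h3 (by omega) fun i hi => ?_, (Nat.eq_zero_or_pos D).imp id fun hp => ⟨hp, ?_⟩⟩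
  · rw [← Nat.descFactorial_eq_factorial_mul_choose]
    exact prod_dvd h3 (by omega) fun i hi => dvd_desc (hD i hi b) (hW i hi b)
  · have e := hc _ _ _ _ _ (mm_modEq h3 (i := i) (by omega)) (hW i hi)
    rw [hk i hi] at e
    exact Int.natCast_dvd.1 (Int.modEq_zero_iff_dvd.1 e)
  · obtain ⟨⟨i, b⟩, hx, e⟩ := exists_mem_eq_sup (range n ×ˢ (univ : Finset β))
      (nonempty_iff_ne_empty.2 fun h => by simp [D, h] at hp) fun x => k x.1 x.2
    have hi : i < n := by simpa using hx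
    intro hg
    have l := one_lt_mm h3 (i := i) (by omega)
    refine l.ne' (Nat.dvd_one.1 (hg ▸ Nat.dvd_gcd (dvd_prod_of_mem _ (mem_range.2 hi)) ?_))
    refine Int.natCast_dvd.1 (Dvd.dvd.trans ?_ (dvd_prod_of_mem _ (mem_univ b)))
    exact ((show D = k i b from e) ▸ (hW i hi b).symm : D ≡ W b [MOD mm (T D) i]).dvd

end BQ

open BQ in
theorem buq_of (h : BinStmt) : BuqStmt := by
  intro α _ R n ⟨β, _, f, hf, hR⟩ hn
  have := Fintype.ofFinite β
  obtain ⟨g, hg, hg'⟩ := major hf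
  let φ : (α → ℕ) → ℕ → (β → ℕ) → ℤ := fun a i k => f (Sum.elim (fun o => o.elim i a) k)
  let T : (α → ℕ) → ℕ → ℕ := fun a D =>
    g (Sum.elim (fun o => o.elim (n a) a) fun _ => D) + (n a + D + 3)
  have hc : ∀ a q i i' k k', i ≡ i' [MOD q] → (∀ b, k b ≡ k' b [MOD q]) →
      φ a i k ≡ φ a i' k' [ZMOD q] := fun a q i i' k k' h1 h2 => modEq hf (by
    rintro ((_ | x) | x)
    exacts [h1, rfl, h2 x])
  have hu : ∀ a i k k', φ a i k = 0 → φ a i k' = 0 → k = k' := fun a i => (hR _).2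
  have hT : ∀ a D, n a + D + 3 ≤ T a D := fun a D => Nat.le_add_left _ _
  have hb : ∀ a D, ∀ i < n a, ∀ k, (∀ b, k b ≤ D) → (φ a i k).natAbs ≤ T a D :=
    fun a D i hi k hk => le_trans (hg' _ _ (by
      rintro ((_ | x) | x)
      exacts [hi.le, le_rfl, hk x])) (Nat.le_add_right _ _)
  refine (SF.exv (β := Option β)
    (S := fun w a => Cond (φ a) (n a) (T a (w none)) (w none) fun b => w (some b)) ?_
    fun a w w' h h' => ?_).congr fun a => ⟨fun ⟨w, h⟩ i hi => ?_, fun h => ?_⟩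
  · have n' : SFn fun v : α ⊕ Option β → ℕ => n fun i => v (.inl i) := hn.reindex _
    have T' : SFn fun v : α ⊕ Option β → ℕ => T (fun i => v (.inl i)) (v (.inr none)) := by
      refine SFn.add ((hg.subst (u := Sum.elim (fun o => o.elim (fun v => n fun i => v (.inl i))
        fun i v => v (.inl i)) fun _ v => v (.inr none)) ?_).congr fun v => ?_) (by sf)
      · rintro ((_ | x) | x)
        exacts [n', .proj _, .proj _]
      · congr 1
        funext x
        rcases x with (_ | x) | x <;> rfl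
    have r' := ((h.2.comp T' T').npow 2).sub (.const 1)
    have M' := h.1.comp r' n'
    have D' : SFn fun v : α ⊕ Option β → ℕ => v (.inr none) + 1 := by sf
    refine SF.and (SF.forall fun b => SF.and (SF.lt (.proj _) M')
      (SF.dvd M' ((h.2.comp D' D').mul (h.1.comp (.proj _) D')))) (SF.and (SF.dvd M' ?_)
      (SF.or (by sf) (SF.and (by sf) (SF.ne (M'.gcd (SFn.natAbs (IP.prod _ fun b =>
        (IsPoly.proj _).sub (.proj _)))) (.const 1))) fun _ h h' => by omega))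
    refine ((SFn.natAbs hf).subst (u := Sum.elim (fun o => o.elim
      (fun v => (T (fun i => v (.inl i)) (v (.inr none))).factorial ^ 2 - 1)
        fun i v => v (.inl i)) fun b v => v (.inr (some b))) ?_).congr fun v => ?_
    · rintro ((_ | x) | x)
      exacts [r', .proj _, .proj _]
    · simp only [φ]
      congr 2
      funext x
      rcases x with (_ | x) | x <;> rfl
  · have e := le_antisymm (le_of (hc a) (hu a) (hT a) (hb a) h h')
      (le_of (hc a) (hu a) (hT a) (hb a) h' h)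
    rw [← e] at h'
    funext x
    cases x
    exacts [e, congrFun (uniq (hc a) (hu a) (hT a) (hb a) h h') _]
  · obtain ⟨k, hk, -⟩ := sound (hc a) (hu a) (hT a) (hb a) h hi
    exact (hR _).1.2 ⟨k, hk⟩
  · obtain ⟨D, W, h⟩ := complete (hc a) (hu a) (hT a) (hb a)
      fun i hi => (hR fun o => o.elim i a).1.1 (h i hi)
    exact ⟨fun o => o.elim D W, h⟩

end Crest.Agent.R323
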