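import Crest.Agent.R323.Defs

/-! Task 323-C: Tate limit and the minimal-height argument. -/

set_option autoImplicit false

open Filter Topology

namespace Crest.Agent.R323

namespace CA

lemma exists_q {A : Type} [AddCommGroup A] (h : A → ℝ) (C : ℝ)
    (hp : ∀ P Q, |h (P + Q) + h (P - Q) - 2 * (h P + h Q)| ≤ C) (h0 : ∀ P, 0 ≤ h P) :
    ∃ q : A → ℝ, (∀ P, |q P - h P| ≤ C) ∧ (∀ P, 0 ≤ q P) ∧
      ∀ P Q, q (P + Q) + q (P - Q) = 2 * q P + 2 * q Q := by
  have hC : 0 ≤ C := (abs_nonneg _).trans (hp 0 0)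
  have hz : h 0 ≤ C := by
    have := hp 0 0
    simp only [add_zero, sub_zero] at this
    have := abs_le.1 this
    have := h0 0
    linarith
  have hd : ∀ P, |h ((2 : ℕ) • P) - 4 * h P| ≤ 2 * C := by
    intro P
    have := hp P P
    rw [sub_self, ← two_nsmul] at this
    have := abs_le.1 this
    have := h0 0
    rw [abs_le]; constructor <;> linarith
  let a : A → ℕ → ℝ := fun P n => h ((2 ^ n : ℕ) • P) / 4 ^ n
  have hs : ∀ P n, dist (a P n) (a P (n + 1)) ≤ (C / 2) * (1 / 4) ^ n := by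
    intro P n
    have h1 := hd ((2 ^ n : ℕ) • P)
    rw [← mul_nsmul, ← pow_succ] at h1
    have h4 : (0 : ℝ) < 4 ^ n := by positivity
    have : a P n - a P (n + 1) =
        -(h ((2 ^ (n + 1) : ℕ) • P) - 4 * h ((2 ^ n : ℕ) • P)) / (4 * 4 ^ n) := by
      simp only [a]; rw [pow_succ (4 : ℝ)]; field_simp; ring
    rw [Real.dist_eq, this, abs_div, abs_neg, abs_of_pos (by positivity : (0 : ℝ) < 4 * 4 ^ n),
      div_le_iff₀ (by positivity)]
    have : C / 2 * (1 / 4) ^ n * (4 * 4 ^ n) = 2 * C := by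
      rw [one_div, inv_pow]; field_simp; ring
    rw [this]; exact h1
  have hc : ∀ P, ∃ l, Tendsto (a P) atTop (𝓝 l) := fun P =>
    cauchySeq_tendsto_of_complete (cauchySeq_of_le_geometric (1 / 4) (C / 2) (by norm_num) (hs P))
  choose q hq using hc
  refine ⟨q, fun P => ?_, fun P => ?_, fun P Q => ?_⟩
  · have := dist_le_of_le_geometric_of_tendsto₀ (1 / 4) (C / 2) (by norm_num) (hs P) (hq P)
    simp only [a, pow_zero, one_smul, div_one] at this
    rw [Real.dist_eq, abs_sub_comm] at this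
    norm_num at this
    linarith
  · exact ge_of_tendsto' (hq P) fun n => div_nonneg (h0 _) (by positivity)
  · have t1 : Tendsto (fun n => a (P + Q) n + a (P - Q) n - 2 * (a P n + a Q n)) atTop
        (𝓝 (q (P + Q) + q (P - Q) - 2 * (q P + q Q))) :=
      ((hq _).add (hq _)).sub (((hq _).add (hq _)).const_mul 2)
    have t2 : Tendsto (fun n => a (P + Q) n + a (P - Q) n - 2 * (a P n + a Q n)) atTop (𝓝 0) := by
      have t3 : Tendsto (fun n : ℕ => C * (1 / 4 : ℝ) ^ n) atTop (𝓝 (C * 0)) :=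
        (tendsto_pow_atTop_nhds_zero_of_lt_one (by norm_num) (by norm_num)).const_mul C
      rw [mul_zero] at t3
      refine squeeze_zero_norm (fun n => ?_) t3
      have h1 := hp ((2 ^ n : ℕ) • P) ((2 ^ n : ℕ) • Q)
      rw [← nsmul_add, ← nsmul_sub] at h1
      have h4 : (0 : ℝ) < 4 ^ n := by positivity
      have : a (P + Q) n + a (P - Q) n - 2 * (a P n + a Q n) =
          (h ((2 ^ n : ℕ) • (P + Q)) + h ((2 ^ n : ℕ) • (P - Q)) -
            2 * (h ((2 ^ n : ℕ) • P) + h ((2 ^ n : ℕ) • Q))) / 4 ^ n := by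
        simp only [a]; field_simp
      rw [Real.norm_eq_abs, this, abs_div, abs_of_pos h4, one_div, inv_pow, ← div_eq_mul_inv]
      exact div_le_div_of_nonneg_right h1 h4.le
    have := tendsto_nhds_unique t1 t2
    linarith

lemma q_smul {A : Type} [AddCommGroup A] (q : A → ℝ)
    (hq : ∀ P Q, q (P + Q) + q (P - Q) = 2 * q P + 2 * q Q) (P : A) (k : ℤ) :
    q (k • P) = k ^ 2 * q P := by
  have z : q 0 = 0 := by
    have := hq 0 0
    simp only [add_zero, sub_zero] at this
    linarith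
  have ng : ∀ R, q (-R) = q R := by
    intro R
    have := hq 0 R
    simp only [zero_add, zero_sub] at this
    linarith
  have nt : ∀ n : ℕ, q (n • P) = n ^ 2 * q P ∧ q ((n + 1) • P) = (n + 1) ^ 2 * q P := by
    intro n
    induction n with
    | zero => simp [z]
    | succ n ih =>
      refine ⟨by simpa using ih.2, ?_⟩
      have := hq ((n + 1) • P) P
      rw [← succ_nsmul, succ_nsmul P n, add_sub_cancel_right, ← succ_nsmul, ih.1, ih.2] at this
      push_cast
      linarith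
  obtain ⟨n, rfl | rfl⟩ := k.eq_nat_or_neg
  · simpa using (nt n).1
  · rw [neg_smul, ng]; simpa using (nt n).1

lemma exists_min {A : Type} (q : A → ℝ) (hf : ∀ B, {P | q P ≤ B}.Finite) (S : Set A)
    (hS : S.Nonempty) : ∃ P ∈ S, ∀ R ∈ S, q P ≤ q R := by
  obtain ⟨P0, hP0⟩ := hS
  obtain ⟨P, hP, hm⟩ := Set.exists_min_image (S ∩ {P | q P ≤ q P0}) q
    ((hf _).inter_of_right _) ⟨P0, hP0, le_refl (q P0)⟩
  refine ⟨P, hP.1, fun R hR => ?_⟩
  by_cases h : q R ≤ q P0
  · exact hm R ⟨hR, h⟩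
  · exact le_trans hP.2 (not_le.1 h).le

end CA

theorem cyc : CycStmt := by
  intro A _ _ h C hp h0 hfin htf hdesc
  obtain ⟨q, hqh, hq0, hq⟩ := CA.exists_q h C hp h0
  have hk := CA.q_smul q hq
  have h2 : ∀ R : A, q (2 • R) = 4 * q R := by
    intro R
    have := hk R 2
    rw [show ((2 : ℤ) • R) = (2 : ℕ) • R by simp [two_smul]] at this
    rw [this]; norm_num
  have hf : ∀ B, {P | q P ≤ B}.Finite := fun B =>
    (hfin (B + C)).subset fun P hP => by
      have := abs_le.1 (hqh P)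
      simp only [Set.mem_ofPred_eq] at hP ⊢
      linarith
  have hpos : ∀ P, P ≠ 0 → 0 < q P := by
    intro P hP
    refine lt_of_le_of_ne (hq0 P) fun h => hP ?_
    have hin : ∀ n : ℕ, n • P ∈ {P | q P ≤ 0} := by
      intro n
      have := hk P n
      simp only [natCast_zsmul] at this
      simp [this, ← h]
    obtain ⟨m, n, hmn, he⟩ := Set.Finite.exists_lt_map_eq_of_forall_mem hin (hf 0)
    refine htf P (n - m) (by omega) ?_
    rw [sub_nsmul _ hmn.le, he]; simp
  obtain ⟨g, hg, hgm⟩ := CA.exists_min q hf {P | P ≠ 0} (exists_ne 0)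
  have hg0 := hpos g hg
  refine ⟨g, q g, C, hg0, fun P0 => ?_, fun k => ?_⟩
  · by_contra hP0
    obtain ⟨P, hP, hPm⟩ := CA.exists_min q hf {P | ¬ ∃ k : ℤ, P = k • g} ⟨P0, hP0⟩
    have hPn : P ≠ 0 := fun h => hP ⟨0, by simp [h]⟩
    have hP1 := hpos P hPn
    rcases hdesc P g with ⟨R, hR⟩ | ⟨R, hR⟩ | ⟨R, hR⟩
    · have : q P ≤ q R := hPm R fun ⟨k, hk⟩ => hP ⟨2 * k, by rw [hR, hk, mul_smul]; simp [two_smul]⟩
      have h3 := h2 R
      rw [← hR] at h3
      linarith
    · have : q g ≤ q R := hgm R fun h => hg (by rw [hR, h]; simp)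
      have h3 := h2 R
      rw [← hR] at h3
      linarith
    · have e1 : P = 2 • R + g := by rw [← hR]; abel
      have a1 : q P ≤ q R := hPm R fun ⟨k, hk⟩ => hP ⟨2 * k + 1, by
        rw [e1, hk, add_smul, mul_smul]; simp [two_smul]⟩
      have a2 : q P ≤ q (R + g) := hPm (R + g) fun ⟨k, hk⟩ => hP ⟨2 * k - 1, by
        have : R = k • g - g := by rw [← hk]; abel
        rw [e1, this, sub_smul, mul_smul]; simp only [two_smul, one_smul]; abel⟩
      have a3 := hq P g
      have e2 : P + g = 2 • (R + g) := by rw [e1]; simp only [two_smul]; abel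
      rw [hR, e2, h2, h2] at a3
      have := hgm P hPn
      linarith
  · have := hqh (k • g)
    rw [hk, abs_sub_comm, mul_comm] at this
    exact this

end Crest.Agent.R323
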