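import Mathlib

/-! Row 323 (single-fold Diophantine representations): definitions and interface statements.

Plan. The rational points with `x > 0` of `y² = x³ - 2x` form (with `O`) an infinite cyclic group;
their heights grow like `exp (c j²)`, so the quotient of two consecutive heights is about
`exp (2 c j)`; comparing a Pell solution with parameter that quotient to the product of the two
heights decodes the index `j`. This gives single-fold exponentiation; the rest is a single-fold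
version of Davis–Putnam–Robinson. -/

set_option autoImplicit false

namespace Crest.Agent.R323

/-- Single-fold Diophantine relations. -/
def SF {α : Type} (R : (α → ℕ) → Prop) : Prop :=
  ∃ (β : Type) (_ : Finite β) (f : (α ⊕ β → ℕ) → ℤ), IsPoly f ∧ ∀ a,
    (R a ↔ ∃ w, f (Sum.elim a w) = 0) ∧
      ∀ w w', f (Sum.elim a w) = 0 → f (Sum.elim a w') = 0 → w = w'

/-- Functions with single-fold Diophantine graph. -/
def SFn {α : Type} (g : (α → ℕ) → ℕ) : Prop :=
  SF fun v : Option α → ℕ => v none = g fun i => v (some i)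

/-- Binary functions with single-fold Diophantine graph. -/
def SF2 (F : ℕ → ℕ → ℕ) : Prop := SFn fun v : Fin 2 → ℕ => F (v 0) (v 1)

/-- Task C. Proof. `h 0` is bounded by `C` (`P = Q = 0`), so `|h (2P) - 4 h P| ≤ 2C`. Tate:
`q P = lim h (2^n P) / 4^n` (`cauchySeq_of_le_geometric`, `dist_le_of_le_geometric_of_tendsto₀`),
`|q - h| ≤ C`, `q (P+Q) + q (P-Q) = 2 q P + 2 q Q`, so `q (k P) = k² q P`, `q ≥ 0`, sublevel sets
of `q` are finite, `q P = 0 → P = 0` (the multiples of `P` lie in a finite set; torsion-free).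
Take `g ≠ 0` with `q g` minimal among non-zero elements; `g ∉ 2A`. If `P ∉ ℤ g` has minimal `q`
among such: `P = 2R` gives `q R = q P / 4 < q P`; otherwise `P - g = 2R`, `P + g = 2 (R + g)`,
`q R + q (R + g) = (q P + q g) / 2 ≤ q P`, so one of `R`, `R + g` has `q < q P`, lies in `ℤ g`. -/
def CycStmt : Prop :=
  ∀ (A : Type) [AddCommGroup A] [Nontrivial A] (h : A → ℝ) (C : ℝ),
    (∀ P Q, |h (P + Q) + h (P - Q) - 2 * (h P + h Q)| ≤ C) → (∀ P, 0 ≤ h P) →
    (∀ B, {P | h P ≤ B}.Finite) → (∀ (P : A) (n : ℕ), 0 < n → n • P = 0 → P = 0) →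
    (∀ P Q : A, (∃ R, P = 2 • R) ∨ (∃ R, Q = 2 • R) ∨ ∃ R, P - Q = 2 • R) →
    ∃ (g : A) (c C' : ℝ), 0 < c ∧ (∀ P, ∃ k : ℤ, P = k • g) ∧
      ∀ k : ℤ, |h (k • g) - c * k ^ 2| ≤ C'

/-- The biquadratic relation between `x P`, `x Q` and `x (P ± Q)` on `y² = x³ - 2x`. -/
def Phi (s t u : ℚ) : Prop :=
  (s - t) ^ 2 * u ^ 2 - 2 * (s * t - 2) * (s + t) * u + (s * t + 2) ^ 2 = 0

/-- Task E (from `CycStmt`): `x j` is the abscissa of `j • g`.
Proof. `W : WeierstrassCurve.Affine ℚ := ⟨0, 0, 0, -2, 0⟩` (`Δ = 512`), `h P = logHeight P.xRep`.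
(1) For all points `sym2x (P+Q) (P-Q) = λ • addSubMap W (sym2x P Q)`, `λ ≠ 0` (cases `0`, `Q = P`,
`Q = -P`, `x₁ ≠ x₂`; it is enough for `P, Q` in `A` below, where `y ≠ 0`). With
`abs_logHeight_addSubMap_sub_two_mul_logHeight_le`, `abs_logHeight_sym2_sub_le`,
`logHeight_smul_eq_logHeight` this is the approximate parallelogram law; Northcott from
`finite_setOfPred_logHeight₁_le` (at most two points per `x`); `Rat.logHeight₁_eq_log_max`.
(2) `A = {0} ∪ {x > 0}` is a subgroup: `x > 0` forces `x² > 2` and `y ≠ 0` (`√2 ∉ ℚ`), and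
`x(P+Q) x(P-Q) = (x₁x₂+2)²/(x₁-x₂)² > 0`, `x(P+Q) + x(P-Q) = 2(x₁+x₂)(x₁x₂-2)/(x₁-x₂)² > 0`,
`x(2P) = (x²+2)²/(4y²)`. Nontrivial: `(2,2)`.
(3) Torsion-free: with `v = padicValRat 2`, `v (x (2P)) < min (v (x P), 0)` or at least
`v (x (2P)) < 0` always and `v (x (2P)) = v (x P) - 2` when `v (x P) < 0`; so the points `2^n P` are
distinct, and a torsion point has finitely many multiples.
(4) Descent: a positive rational all of whose valuations at odd primes are even is `r²` or `2r²`.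
This applies to `x` (`y² = x (x² - 2)`). For `x₁ ≠ x₂`, `x₁ x₂ x(P-Q)` is the square of the
intercept of the line. If `x P = t²`, `t > 0`, then `t⁴ - 2 = s²`, `(t²+s)(t²-s) = 2`, so (change the
sign of `s`) `t² + s = 2r²`, `r > 0`, `2t²r² = 2r⁴ + 1`; `u = 2r(r+t) > 0`, `v = 2ru` is a point with
`u² - 2 = 4r²u`, `u² + 2 = 2tv`, so `x (2 (u,v)) = t²` and `P = ±2(u,v)`. -/
def EllStmt : Prop :=
  ∃ (x : ℕ → ℚ) (c C : ℝ), 0 < c ∧
    (∀ t : ℚ, (∃ j, 1 ≤ j ∧ x j = t) ↔ 0 < t ∧ IsSquare (t ^ 3 - 2 * t)) ∧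
    (∀ i j, 1 ≤ i → 1 ≤ j → x i = x j → i = j) ∧
    (∀ j, 1 ≤ j → |Real.log (x j).num.natAbs - c * (j : ℝ) ^ 2| ≤ C) ∧
    ∀ i j u, 1 ≤ j → j ≤ i → (Phi (x i) (x j) u ↔ u = x (i + j) ∨ (j < i ∧ u = x (i - j)))

/-- Task H (from `EllStmt`): consecutive heights form a single-fold Diophantine set. -/
def HtStmt : Prop :=
  ∃ (H : ℕ → ℕ) (c : ℝ), 100 ≤ c ∧ (∀ j, 1 ≤ j → |Real.log (H j) - c * (j : ℝ) ^ 2| ≤ c / 100) ∧
    SF fun v : Fin 2 → ℕ => ∃ j, 1 ≤ j ∧ v 0 = H j ∧ v 1 = H (j + 1)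

/-- Exponentiation. -/
def PowStmt : Prop := SF2 fun a b => a ^ b

/-- Binomial coefficients and factorials. -/
def BinStmt : Prop := SF2 Nat.choose ∧ SF2 fun a _ => a.factorial

/-- Bounded universal quantifiers. -/
def BuqStmt : Prop :=
  ∀ (α : Type) [Finite α] (R : ℕ → (α → ℕ) → Prop) (n : (α → ℕ) → ℕ),
    (SF fun v : Option α → ℕ => R (v none) fun i => v (some i)) → SFn n →
    SF fun a => ∀ i < n a, R i a

/-- Graphs of partial recursive functions. -/
def RecStmt : Prop := ∀ f : ℕ →. ℕ, Nat.Partrec f → SF fun v : Fin 2 → ℕ => v 1 ∈ f (v 0)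

end Crest.Agent.R323
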