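import Crest.Agent.R323.EllB

/-! Task 323-E: the multiples of a generator of the positive part of `y² = x³ - 2x`. -/

set_option autoImplicit false

open WeierstrassCurve WeierstrassCurve.Affine WeierstrassCurve.Affine.Point Height

namespace Crest.Agent.R323

open EA

theorem ell (hc : CycStmt) : EllStmt := by
  have hn : W.Nonsingular 2 2 := (ns_iff _ _).2 (by norm_num)
  have hA : Point.some 2 2 hn ∈ A := (mem_A hn).2 (by norm_num)
  have : Nontrivial A := ⟨⟨⟨_, hA⟩, 0, fun h => some_ne_zero hn (congrArg Subtype.val h)⟩⟩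
  obtain ⟨C, hC⟩ := para
  obtain ⟨g, c, C', c0, hg, hh⟩ := hc A (fun P => ht P) C (fun P Q => hC P Q P.2)
    (fun P => logHeight_nonneg _)
    (fun B => (northcott B).preimage Subtype.val_injective.injOn)
    (fun P n hn h => Subtype.ext (torsion_free P P.2 n hn (congrArg Subtype.val h)))
    (fun P Q => by
      rcases descent P Q P.2 Q.2 with ⟨R, hR, e⟩ | ⟨R, hR, e⟩ | ⟨R, hR, e⟩
      · exact .inl ⟨⟨R, hR⟩, Subtype.ext e⟩
      · exact .inr (.inl ⟨⟨R, hR⟩, Subtype.ext e⟩)
      · exact .inr (.inr ⟨⟨R, hR⟩, Subtype.ext e⟩))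
  have g0 : (g : W.Point) ≠ 0 := by
    intro h
    obtain ⟨k, hk⟩ := hg ⟨_, hA⟩
    have := congrArg Subtype.val hk
    simp only [AddSubgroup.coe_zsmul, h, zsmul_zero] at this
    exact some_ne_zero hn this
  have pt : ∀ j : ℕ, 1 ≤ j → ∃ x y, ∃ h : W.Nonsingular x y,
      j • (g : W.Point) = Point.some x y h ∧ 0 < x := by
    intro j hj
    have hm := A.nsmul_mem g.2 j
    have h0 : j • (g : W.Point) ≠ 0 := fun h => g0 (torsion_free _ g.2 j hj h)
    revert hm h0
    rcases j • (g : W.Point) with _ | ⟨x, y, h⟩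
    · intro _ h0; exact absurd rfl h0
    · intro hm _; exact ⟨x, y, h, rfl, hm⟩
  have inj : ∀ i j : ℕ, 1 ≤ i → 1 ≤ j →
      (i • (g : W.Point)).xRep 0 = (j • (g : W.Point)).xRep 0 → i = j := by
    intro i j hi hj e
    obtain ⟨x, y, h, e1, _⟩ := pt i hi
    obtain ⟨x', y', h', e2, _⟩ := pt j hj
    have e3 : x = x' := by simpa [e1, e2] using e
    subst e3
    rcases same_x h h' with e4 | e4
    · rw [← e1, ← e2] at e4
      by_contra hne
      rcases lt_or_gt_of_ne hne with l | l
      · refine g0 (torsion_free _ g.2 (j - i) (by omega) ?_)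
        rw [sub_nsmul _ l.le, e4]; simp
      · refine g0 (torsion_free _ g.2 (i - j) (by omega) ?_)
        rw [sub_nsmul _ l.le, e4]; simp
    · rw [← e1, ← e2] at e4
      refine absurd (torsion_free _ g.2 (j + i) (by omega) ?_) g0
      rw [add_nsmul, e4]; simp
  refine ⟨fun j => (j • (g : W.Point)).xRep 0, c, C', c0, fun t => ⟨?_, ?_⟩, inj, fun j hj => ?_,
    fun i j u hj hji => ?_⟩
  · rintro ⟨j, hj, rfl⟩
    obtain ⟨x, y, h, e, hx⟩ := pt j hj
    simp only [e, xRep_some, Matrix.cons_val_zero]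
    exact ⟨hx, y, by rw [← (ns_iff _ _).1 h, sq]⟩
  · rintro ⟨ht, y, hy⟩
    have h : W.Nonsingular t y := (ns_iff _ _).2 (by rw [hy, sq])
    obtain ⟨k, hk⟩ := hg ⟨_, (mem_A h).2 ht⟩
    have e := congrArg Subtype.val hk
    simp only [AddSubgroup.coe_zsmul] at e
    obtain ⟨n, rfl | rfl⟩ := k.eq_nat_or_neg
    · rw [natCast_zsmul] at e
      refine ⟨n, Nat.pos_of_ne_zero ?_, by simp only [← e]; rfl⟩
      rintro rfl
      simp at e
    · rw [neg_zsmul, natCast_zsmul] at e
      refine ⟨n, Nat.pos_of_ne_zero ?_, by beta_reduce; rw [← xRep_neg, ← e]; rfl⟩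
      rintro rfl
      simp at e
  · obtain ⟨x, y, h, e, hx⟩ := pt j hj
    have := hh j
    simp only [natCast_zsmul, AddSubgroup.coe_nsmul, e, ht_some,
      Rat.logHeight₁_eq_log_max, Int.cast_natCast] at this
    simp only [e, xRep_some, Matrix.cons_val_zero]
    have h1 : 1 ≤ x := by nlinarith [(pos_facts h hx).1]
    have h2 : x.den ≤ x.num.natAbs := by
      have a : (x.den : ℚ) ≤ x.num := by
        rw [← Rat.mul_den_eq_num]
        exact le_mul_of_one_le_left (by positivity) h1
      have b : (x.den : ℤ) ≤ x.num := by exact_mod_cast a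
      omega
    rwa [max_eq_left h2] at this
  · obtain ⟨x₁, y₁, h₁, e₁, p₁⟩ := pt i (by omega)
    obtain ⟨x₂, y₂, h₂, e₂, p₂⟩ := pt j hj
    rcases hji.eq_or_lt with rfl | l
    · have b := (pos_facts h₁ p₁).2
      obtain ⟨y', h', e'⟩ := dbl h₁ b
      have e := (ns_iff _ _).1 h₁
      simp only [add_nsmul, e₁, e', xRep_some, Matrix.cons_val_zero, lt_irrefl, false_and, or_false,
        Phi]
      rw [eq_div_iff (by positivity)]
      constructor <;> intro k
      · linear_combination (-1) * k + 4 * u * e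
      · linear_combination (-1) * k + 4 * u * e
    · have hx : x₁ ≠ x₂ := by
        intro hx
        have := inj i j (by omega) hj (by simp [e₁, e₂, hx])
        omega
      obtain ⟨y', h', e'⟩ := add_ne h₁ h₂ hx
      obtain ⟨y'', h'', e''⟩ := sub_ne h₁ h₂ hx
      have hs : (x₁ - x₂) ^ 2 ≠ 0 := pow_ne_zero _ (sub_ne_zero.2 hx)
      have hp := prod_eq h₁ h₂
      beta_reduce
      rw [add_nsmul, sub_nsmul _ l.le, ← sub_eq_add_neg]
      simp only [e₁, e₂, e', e'', xRep_some, Matrix.cons_val_zero, l, true_and, Phi]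
      rw [eq_div_iff hs, eq_div_iff hs, ← sub_eq_zero (a := u * _), ← sub_eq_zero (a := u * _),
        ← mul_eq_zero, ← mul_right_inj' hs, mul_zero]
      constructor <;> intro k
      · linear_combination k + hp
      · linear_combination k - hp

end Crest.Agent.R323
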