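import Crest.Agent.R323.Defs

/-! Task 323-E, part A: the curve `y² = x³ - 2x`, addition formulas, the subgroup `x > 0`,
heights. -/

set_option autoImplicit false

open WeierstrassCurve WeierstrassCurve.Affine WeierstrassCurve.Affine.Point Height

namespace Crest.Agent.R323.EA

/-- The curve. -/
def W : WeierstrassCurve.Affine ℚ := ⟨0, 0, 0, -2, 0⟩

lemma W_Δ : W.Δ = 512 := by
  simp only [W, WeierstrassCurve.Δ, WeierstrassCurve.b₂, WeierstrassCurve.b₄, WeierstrassCurve.b₆,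
    WeierstrassCurve.b₈]
  norm_num

instance : W.IsElliptic := ⟨by rw [W_Δ]; exact isUnit_iff_ne_zero.2 (by norm_num)⟩

lemma ns_iff (x y : ℚ) : W.Nonsingular x y ↔ y ^ 2 = x ^ 3 - 2 * x := by
  rw [← equation_iff_nonsingular, equation_iff]
  simp only [W]
  constructor <;> intro h <;> linarith

lemma negY_eq (x y : ℚ) : W.negY x y = -y := by simp [negY, W]

lemma neg_pt {x y : ℚ} (h : W.Nonsingular x y) :
    ∃ h' : W.Nonsingular x (-y), -(Point.some x y h) = Point.some x (-y) h' := by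
  refine ⟨(ns_iff _ _).2 (by rw [neg_sq]; exact (ns_iff _ _).1 h), ?_⟩
  rw [neg_some]; simp only [negY_eq]

lemma add_ne {x₁ y₁ x₂ y₂ : ℚ} (h₁ : W.Nonsingular x₁ y₁) (h₂ : W.Nonsingular x₂ y₂)
    (hx : x₁ ≠ x₂) : ∃ y h, Point.some x₁ y₁ h₁ + Point.some x₂ y₂ h₂ =
      Point.some (((x₁ + x₂) * (x₁ * x₂ - 2) - 2 * y₁ * y₂) / (x₁ - x₂) ^ 2) y h := by
  have e : W.addX x₁ x₂ (W.slope x₁ x₂ y₁ y₂) =
      ((x₁ + x₂) * (x₁ * x₂ - 2) - 2 * y₁ * y₂) / (x₁ - x₂) ^ 2 := by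
    have e1 := (ns_iff _ _).1 h₁
    have e2 := (ns_iff _ _).1 h₂
    have : x₁ - x₂ ≠ 0 := sub_ne_zero.2 hx
    rw [slope_of_X_ne hx]
    simp only [addX, W]
    field_simp
    linear_combination e1 + e2
  rw [add_of_X_ne hx]
  generalize_proofs p
  revert p
  rw [e]
  intro p
  exact ⟨_, p, rfl⟩

lemma sub_ne {x₁ y₁ x₂ y₂ : ℚ} (h₁ : W.Nonsingular x₁ y₁) (h₂ : W.Nonsingular x₂ y₂)
    (hx : x₁ ≠ x₂) : ∃ y h, Point.some x₁ y₁ h₁ - Point.some x₂ y₂ h₂ =
      Point.some (((x₁ + x₂) * (x₁ * x₂ - 2) + 2 * y₁ * y₂) / (x₁ - x₂) ^ 2) y h := by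
  obtain ⟨h', e⟩ := neg_pt h₂
  rw [sub_eq_add_neg (Point.some x₁ y₁ h₁), e]
  have := add_ne h₁ h' hx
  rwa [show (x₁ + x₂) * (x₁ * x₂ - 2) - 2 * y₁ * -y₂ = (x₁ + x₂) * (x₁ * x₂ - 2) + 2 * y₁ * y₂ by
    ring] at this

lemma dbl {x y : ℚ} (h : W.Nonsingular x y) (hy : y ≠ 0) :
    ∃ y' h', Point.some x y h + Point.some x y h =
      Point.some ((x ^ 2 + 2) ^ 2 / (4 * y ^ 2)) y' h' := by
  have hy' : y ≠ W.negY x y := by
    rw [negY_eq]; intro h; apply hy; linarith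
  have e : W.addX x x (W.slope x x y y) = (x ^ 2 + 2) ^ 2 / (4 * y ^ 2) := by
    have e1 := (ns_iff _ _).1 h
    rw [slope_of_Y_ne rfl hy', negY_eq]
    simp only [addX, W]
    have : y - -y = 2 * y := by ring
    rw [this]
    field_simp
    linear_combination (-32 * x) * e1
  rw [add_self_of_Y_ne hy']
  generalize_proofs p
  revert p
  rw [e]
  intro p
  exact ⟨_, p, rfl⟩

lemma sq_ne_two (x : ℚ) : x ^ 2 ≠ 2 := by
  intro h
  have : IsSquare (2 : ℚ) := ⟨x, by rw [← h, sq]⟩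
  have h2 : IsSquare ((2 : ℕ) : ℚ) := by exact_mod_cast this
  rw [Rat.isSquare_natCast_iff] at h2
  exact Nat.prime_two.not_isSquare h2

lemma pos_facts {x y : ℚ} (h : W.Nonsingular x y) (hx : 0 < x) : 2 < x ^ 2 ∧ y ≠ 0 := by
  have e := (ns_iff _ _).1 h
  have h2 : 2 < x ^ 2 := by
    refine lt_of_le_of_ne ?_ (sq_ne_two x).symm
    by_contra hc
    push Not at hc
    nlinarith [sq_nonneg y]
  refine ⟨h2, fun hy => ?_⟩
  rw [hy] at e
  nlinarith

lemma same_x {x y y' : ℚ} (h : W.Nonsingular x y) (h' : W.Nonsingular x y') :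
    Point.some x y' h' = Point.some x y h ∨ Point.some x y' h' = -Point.some x y h :=
  X_eq_iff.1 rfl

lemma prod_eq {x₁ y₁ x₂ y₂ : ℚ} (h₁ : W.Nonsingular x₁ y₁) (h₂ : W.Nonsingular x₂ y₂) :
    ((x₁ + x₂) * (x₁ * x₂ - 2) - 2 * y₁ * y₂) * ((x₁ + x₂) * (x₁ * x₂ - 2) + 2 * y₁ * y₂) =
      (x₁ * x₂ + 2) ^ 2 * (x₁ - x₂) ^ 2 := by
  have e1 := (ns_iff _ _).1 h₁
  have e2 := (ns_iff _ _).1 h₂
  linear_combination (-4 * y₂ ^ 2) * e1 + (-4 * (x₁ ^ 3 - 2 * x₁)) * e2

/-- The subgroup of points with positive abscissa. -/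
def A : AddSubgroup W.Point where
  carrier := {P | 0 < P.xRep 0}
  zero_mem' := by simp
  neg_mem' := by intro P hP; simpa using hP
  add_mem' := by
    rintro (_ | ⟨x₁, y₁, h₁⟩) (_ | ⟨x₂, y₂, h₂⟩) hP hQ
    · simp [← zero_def]
    · simpa [← zero_def] using hQ
    · simpa [← zero_def] using hP
    · simp only [Set.mem_ofPred_eq, xRep_some, Matrix.cons_val_zero] at hP hQ ⊢
      obtain ⟨a1, b1⟩ := pos_facts h₁ hP
      obtain ⟨a2, b2⟩ := pos_facts h₂ hQ
      by_cases hx : x₁ = x₂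
      · subst hx
        rcases same_x h₁ h₂ with e | e
        · obtain ⟨y', h', e'⟩ := dbl h₁ b1
          rw [e, e']
          simp only [xRep_some, Matrix.cons_val_zero]
          positivity
        · rw [e, add_neg_cancel]; simp
      · obtain ⟨y', h', e'⟩ := add_ne h₁ h₂ hx
        rw [e']
        simp only [xRep_some, Matrix.cons_val_zero]
        have hs : x₁ - x₂ ≠ 0 := sub_ne_zero.2 hx
        have hp := prod_eq h₁ h₂
        have h3 : 2 < x₁ * x₂ := by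
          by_contra hc
          push Not at hc
          have := mul_pos hP hQ
          nlinarith
        have h4 : 0 < (x₁ + x₂) * (x₁ * x₂ - 2) := mul_pos (by linarith) (by linarith)
        have h5 : 0 < (x₁ * x₂ + 2) ^ 2 * (x₁ - x₂) ^ 2 := by positivity
        refine div_pos ?_ (by positivity)
        by_contra hc
        push Not at hc
        nlinarith

lemma mem_A {x y : ℚ} (h : W.Nonsingular x y) : Point.some x y h ∈ A ↔ 0 < x := Iff.rfl

lemma asm (s t u : ℚ) : (fun i => MvPolynomial.eval ![s, t, u] (addSubMap W i)) =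
    ![(s + 2 * u) ^ 2, 2 * t * (s - 2 * u), t ^ 2 - 4 * s * u] := by
  funext i
  fin_cases i <;>
    simp [addSubMap, W, WeierstrassCurve.b₂, WeierstrassCurve.b₄, WeierstrassCurve.b₆,
      WeierstrassCurve.b₈] <;> ring

lemma sym_add (P Q : W.Point) (hP : P ∈ A) : ∃ c : ℚ, c ≠ 0 ∧
    sym2x (P + Q) (P - Q) = c • fun i => MvPolynomial.eval (sym2x P Q) (addSubMap W i) := by
  rcases P with _ | ⟨x₁, y₁, h₁⟩ <;> rcases Q with _ | ⟨x₂, y₂, h₂⟩
  · refine ⟨1, one_ne_zero, ?_⟩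
    simp only [← zero_def, add_zero, sub_zero, sym2x_zero_zero, asm]
    norm_num
  · refine ⟨1, one_ne_zero, ?_⟩
    simp only [← zero_def, zero_add, zero_sub, sym2x_neg_right, sym2x_zero_some, sym2x_some_some,
      asm]
    ext i; fin_cases i <;> simp <;> ring
  · refine ⟨1, one_ne_zero, ?_⟩
    simp only [← zero_def, add_zero, sub_zero, sym2x_some_zero, sym2x_some_some, asm]
    ext i; fin_cases i <;> simp <;> ring
  · obtain ⟨a1, b1⟩ := pos_facts h₁ hP
    have e1 := (ns_iff _ _).1 h₁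
    by_cases hx : x₁ = x₂
    · subst hx
      obtain ⟨y', h', e'⟩ := dbl h₁ b1
      refine ⟨1 / (4 * y₁ ^ 2), by positivity, ?_⟩
      have key : sym2x (Point.some x₁ y₁ h₁ + Point.some x₁ y₂ h₂)
          (Point.some x₁ y₁ h₁ - Point.some x₁ y₂ h₂) = ![(x₁ ^ 2 + 2) ^ 2 / (4 * y₁ ^ 2), 1, 0] := by
        rcases same_x h₁ h₂ with e | e
        · rw [e, e', sub_self, sym2x_some_zero]
        · rw [e, sub_neg_eq_add, e', add_neg_cancel, sym2x_zero_some]
      rw [key, sym2x_some_some, asm]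
      ext i; fin_cases i <;> simp
      · field_simp
      · field_simp; linear_combination 4 * e1
      · right; ring
    · obtain ⟨y', h', e'⟩ := add_ne h₁ h₂ hx
      obtain ⟨y'', h'', e''⟩ := sub_ne h₁ h₂ hx
      have hs : x₁ - x₂ ≠ 0 := sub_ne_zero.2 hx
      refine ⟨1 / (x₁ - x₂) ^ 2, by positivity, ?_⟩
      rw [e', e'', sym2x_some_some, sym2x_some_some, asm]
      have hp := prod_eq h₁ h₂
      ext i; fin_cases i <;> simp
      · field_simp; linear_combination hp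
      · field_simp; ring
      · field_simp; ring

/-- The naive height. -/
noncomputable def ht (P : W.Point) : ℝ := logHeight P.xRep

lemma para : ∃ C : ℝ, ∀ P Q : W.Point, P ∈ A →
    |ht (P + Q) + ht (P - Q) - 2 * (ht P + ht Q)| ≤ C := by
  obtain ⟨C₁, h₁⟩ := abs_logHeight_sym2_sub_le ℚ
  obtain ⟨C₂, h₂⟩ := abs_logHeight_addSubMap_sub_two_mul_logHeight_le W
  have hs : ∀ P Q : W.Point, |logHeight (sym2x P Q) - (ht P + ht Q)| ≤ C₁ := by
    intro P Q
    have e : ∀ R : W.Point, ![R.xRep 0, R.xRep 1] = R.xRep := by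
      intro R; ext i; fin_cases i <;> rfl
    have := h₁ (a := P.xRep 0) (b := P.xRep 1) (c := Q.xRep 0) (d := Q.xRep 1)
      (by rw [e]; exact xRep_ne_zero P) (by rw [e]; exact xRep_ne_zero Q)
    rw [e, e] at this
    exact this
  refine ⟨3 * C₁ + C₂, fun P Q hP => ?_⟩
  obtain ⟨c, hc, e⟩ := sym_add P Q hP
  have a1 := abs_le.1 (hs P Q)
  have a2 := abs_le.1 (hs (P + Q) (P - Q))
  have a3 := abs_le.1 (h₂ (sym2x P Q))
  rw [e, logHeight_smul_eq_logHeight _ hc] at a2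
  rw [abs_le]; constructor <;> linarith

lemma ht_some {x y : ℚ} (h : W.Nonsingular x y) : ht (Point.some x y h) = logHeight₁ x := by
  rw [ht, xRep_some, logHeight₁_eq_logHeight]

lemma northcott (B : ℝ) : {P : W.Point | ht P ≤ B}.Finite := by
  refine Set.Finite.of_finite_fibers xRep ?_ ?_
  · refine (((NumberField.finite_setOfPred_logHeight₁_le ℚ B).image fun x => ![x, 1]).insert
      ![1, 0]).subset ?_
    rintro _ ⟨_ | ⟨x, y, h⟩, hP, rfl⟩
    · left; rfl
    · right; exact ⟨x, by simpa [ht_some] using hP, rfl⟩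
  · rintro _ ⟨P, _, rfl⟩
    refine (Set.toFinite {P, -P}).subset ?_
    rintro Q ⟨_, hQ⟩
    exact eq_or_eq_neg_of_xRep_eq_xRep hQ

end Crest.Agent.R323.EA
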