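import Crest.Agent.R323.EllA

/-! Task 323-E, part B: torsion-freeness and the 2-descent. -/

set_option autoImplicit false

open WeierstrassCurve WeierstrassCurve.Affine WeierstrassCurve.Affine.Point

namespace Crest.Agent.R323.EA

lemma val_add {p : ℕ} [Fact p.Prime] {x c : ℚ} (hx : x ≠ 0) (hc : c ≠ 0) (h : x ^ 2 + c ≠ 0)
    (hne : 2 * padicValRat p x ≠ padicValRat p c) :
    padicValRat p (x ^ 2 + c) = min (2 * padicValRat p x) (padicValRat p c) := by
  have e : padicValRat p (x ^ 2) = 2 * padicValRat p x := by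
    rw [padicValRat.pow]; norm_num
  rw [padicValRat.add_eq_min h (pow_ne_zero _ hx) hc (by rw [e]; exact hne), e]

lemma val_dbl {x y : ℚ} (h : W.Nonsingular x y) (hx : 0 < x) :
    padicValRat 2 ((x ^ 2 + 2) ^ 2 / (4 * y ^ 2)) < 0 ∧
      (padicValRat 2 x < 0 → padicValRat 2 ((x ^ 2 + 2) ^ 2 / (4 * y ^ 2)) < padicValRat 2 x) := by
  obtain ⟨a, b⟩ := pos_facts h hx
  have e := (ns_iff _ _).1 h
  have v2 : padicValRat 2 (2 : ℚ) = 1 := by
    have := padicValRat.self (p := 2) (by norm_num)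
    simpa using this
  have v2' : padicValRat 2 (-2 : ℚ) = 1 := by rw [padicValRat.neg, v2]
  have v4 : padicValRat 2 (4 : ℚ) = 2 := by
    rw [show (4 : ℚ) = 2 ^ 2 by norm_num, padicValRat.pow, v2]; norm_num
  have h1 : x ^ 2 + 2 ≠ 0 := by positivity
  have h2 : x ^ 2 + -2 ≠ 0 := by linarith [a] |> fun (h : 0 < x ^ 2 + -2) => h.ne'
  have a1 := val_add (p := 2) hx.ne' two_ne_zero h1 (by rw [v2]; omega)
  have a2 := val_add (p := 2) hx.ne' (by norm_num : (-2 : ℚ) ≠ 0) h2 (by rw [v2']; omega)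
  have e' : y ^ 2 = x * (x ^ 2 + -2) := by rw [e]; ring
  rw [padicValRat.div (pow_ne_zero _ h1) (by positivity), padicValRat.pow,
    padicValRat.mul (by norm_num) (by positivity), e', padicValRat.mul hx.ne' h2, a1, a2, v2, v2',
    v4]
  push_cast
  omega

lemma torsion_free (P : W.Point) (hP : P ∈ A) (n : ℕ) (hn : 0 < n) (h : n • P = 0) : P = 0 := by
  by_contra h0
  have step : ∀ Q : W.Point, Q ∈ A → Q ≠ 0 → (2 • Q ≠ 0 ∧ padicValRat 2 ((2 • Q).xRep 0) < 0 ∧
      (padicValRat 2 (Q.xRep 0) < 0 →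
        padicValRat 2 ((2 • Q).xRep 0) < padicValRat 2 (Q.xRep 0))) := by
    rintro (_ | ⟨x, y, hq⟩) hQ hQ0
    · exact absurd rfl hQ0
    · obtain ⟨y', h', e⟩ := dbl hq (pos_facts hq hQ).2
      rw [two_nsmul, e]
      exact ⟨some_ne_zero _, val_dbl hq hQ⟩
  have nz : ∀ k : ℕ, (2 ^ k) • P ≠ 0 := by
    intro k
    induction k with
    | zero => simpa using h0
    | succ k ih => rw [pow_succ, mul_nsmul]; exact (step _ (A.nsmul_mem hP _) ih).1
  have anti : StrictAnti fun k : ℕ => padicValRat 2 (((2 ^ (k + 1)) • P).xRep 0) := by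
    refine strictAnti_nat_of_succ_lt fun k => ?_
    have a := (step _ (A.nsmul_mem hP (2 ^ k)) (nz k)).2.1
    rw [← mul_nsmul, ← pow_succ] at a
    have b := (step _ (A.nsmul_mem hP (2 ^ (k + 1))) (nz (k + 1))).2.2 a
    rw [← mul_nsmul, ← pow_succ] at b
    exact b
  have fin : (AddSubmonoid.multiples P : Set W.Point).Finite :=
    (isOfFinAddOrder_iff_nsmul_eq_zero.2 ⟨n, hn, h⟩).finite_multiples
  obtain ⟨a, b, hab, e⟩ := Set.Finite.exists_lt_map_eq_of_forall_mem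
    (f := fun k : ℕ => (2 ^ (k + 1)) • P) (fun k => AddSubmonoid.nsmul_mem _ (AddSubmonoid.mem_multiples P) _) fin
  have := anti hab
  simp only at this e
  rw [e] at this
  exact lt_irrefl _ this

lemma sq_or_two {x : ℚ} (hx : 0 < x)
    (h : ∀ (p : ℕ) [Fact p.Prime], p ≠ 2 → Even (padicValRat p x)) :
    ∃ r : ℚ, 0 < r ∧ (x = r ^ 2 ∨ x = 2 * r ^ 2) := by
  have hn : 0 < x.num.natAbs := Int.natAbs_pos.2 (Rat.num_pos.2 hx).ne'
  have hd := x.den_pos
  obtain ⟨k, m, hk, hm, e, hsq⟩ := Nat.sq_mul_squarefree_of_pos (Nat.mul_pos hn hd)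
  have hk2 : ∀ {p : ℕ}, p.Prime → p ∣ k → p = 2 := by
    intro p hp hpk
    by_contra hne
    have : Fact p.Prime := ⟨hp⟩
    have h1 := h p hne
    have h2 : padicValNat p k = 1 := by
      rw [← Nat.factorization_def _ hp]
      exact Nat.factorization_eq_one_of_squarefree hsq hp hpk
    have h3 := congrArg (padicValNat p) e
    rw [padicValNat.mul (by positivity) hk.ne', padicValNat.mul hn.ne' hd.ne', padicValNat.pow,
      h2] at h3
    rw [padicValRat_def, padicValInt] at h1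
    obtain ⟨c, hc⟩ := h1
    omega
  have hk3 := Nat.eq_prime_pow_of_unique_prime_dvd hk.ne' hk2
  have hk4 : k = 1 ∨ k = 2 := by
    generalize k.primeFactorsList.length = j at hk3
    rcases j with _ | _ | j
    · left; simpa using hk3
    · right; simpa using hk3
    · exfalso
      have := hsq 2 ⟨2 ^ j, by rw [hk3]; ring⟩
      simp at this
  have hx' : x = (k : ℚ) * ((m : ℚ) / x.den) ^ 2 := by
    have e' : ((m : ℚ)) ^ 2 * k = (x.num : ℚ) * x.den := by
      have : ((x.num.natAbs : ℕ) : ℚ) = (x.num : ℚ) := by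
        rw [← Int.cast_natCast, Int.natAbs_of_nonneg (Rat.num_pos.2 hx).le]
      rw [← this]; exact_mod_cast e
    have hd' : (x.den : ℚ) ≠ 0 := by positivity
    have e2 : (x.num : ℚ) = x * x.den := (Rat.mul_den_eq_num x).symm
    field_simp
    rw [mul_comm (k : ℚ), e', e2]; ring
  refine ⟨(m : ℚ) / x.den, by positivity, ?_⟩
  rcases hk4 with rfl | rfl
  · left; simpa using hx'
  · right; simpa using hx'

lemma cls {x c e z : ℚ} (hx : 0 < x) (hc : c = 2 ∨ c = -2) (he : e = 1 ∨ e = 2) (hz : z ≠ 0)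
    (h : x * (x ^ 2 + c) = e * z ^ 2) : ∃ r : ℚ, 0 < r ∧ (x = r ^ 2 ∨ x = 2 * r ^ 2) := by
  refine sq_or_two hx fun p _ hp => ?_
  have v2 : padicValRat p (2 : ℚ) = 0 := by
    have := padicValNat_primes (p := p) (q := 2) hp
    have h2 := padicValRat.of_nat (p := p) (n := 2)
    rw [this] at h2
    simpa using h2
  have vc : padicValRat p c = 0 := by rcases hc with rfl | rfl <;> simp [v2]
  have ve : padicValRat p e = 0 := by rcases he with rfl | rfl <;> simp [v2]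
  have c0 : c ≠ 0 := by rcases hc with rfl | rfl <;> norm_num
  have e0 : e ≠ 0 := by rcases he with rfl | rfl <;> norm_num
  have h0 : x ^ 2 + c ≠ 0 := by
    intro h0
    rw [h0, mul_zero] at h
    exact mul_ne_zero e0 (pow_ne_zero 2 hz) h.symm
  by_cases hv : padicValRat p x = 0
  · rw [hv]; exact Even.zero
  have a := val_add (p := p) hx.ne' c0 h0 (by rw [vc]; omega)
  have b := congrArg (padicValRat p) h
  rw [padicValRat.mul hx.ne' h0, padicValRat.mul e0 (pow_ne_zero _ hz), padicValRat.pow, a, vc,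
    ve] at b
  push_cast at b
  rw [Int.even_iff]
  omega

lemma half {t y : ℚ} (ht : 0 < t) (h : W.Nonsingular (t ^ 2) y) :
    ∃ R ∈ A, Point.some (t ^ 2) y h = 2 • R := by
  have e := (ns_iff _ _).1 h
  obtain ⟨a, b⟩ := pos_facts h (by positivity)
  obtain ⟨s, rfl⟩ : ∃ s, y = t * s := ⟨y / t, by field_simp⟩
  have es : s ^ 2 = t ^ 4 - 2 := by
    have : t ^ 2 * s ^ 2 = t ^ 2 * (t ^ 4 - 2) := by linear_combination e
    exact mul_left_cancel₀ (by positivity) this
  have pr : (t ^ 2 + s) * (t ^ 2 - s) = 2 := by linear_combination -es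
  have pos : 0 < t ^ 2 + s := by
    by_contra hc
    push Not at hc
    nlinarith [sq_nonneg t]
  have key : ∃ r : ℚ, 0 < r ∧ 2 * t ^ 2 * r ^ 2 = 2 * r ^ 4 + 1 := by
    obtain ⟨r, hr, hr' | hr'⟩ := cls (c := 2) (e := 2) (z := t * (t ^ 2 + s)) pos (.inl rfl)
      (.inr rfl) (by positivity) (by linear_combination (t ^ 2 + s) * es)
    · refine ⟨1 / r, by positivity, ?_⟩
      obtain rfl : s = r ^ 2 - t ^ 2 := by linarith
      field_simp
      linear_combination pr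
    · refine ⟨r, hr, ?_⟩
      obtain rfl : s = 2 * r ^ 2 - t ^ 2 := by linarith
      linear_combination pr / 2
  obtain ⟨r, hr, k⟩ := key
  have hn : W.Nonsingular (2 * r * (r + t)) (2 * r * (2 * r * (r + t))) := by
    rw [ns_iff]
    linear_combination (-4 * r * (r + t)) * k
  have hu : 0 < 2 * r * (r + t) := by positivity
  obtain ⟨y', h', e'⟩ := dbl hn (by positivity)
  have ex : t ^ 2 = ((2 * r * (r + t)) ^ 2 + 2) ^ 2 / (4 * (2 * r * (2 * r * (r + t))) ^ 2) := by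
    have : (2 * r * (r + t)) ^ 2 + 2 = 2 * t * (2 * r * (2 * r * (r + t))) := by
      linear_combination (-2) * k
    rw [this]; field_simp; norm_num
  rcases (X_eq_iff (h₁ := h) (h₂ := h')).1 ex with e2 | e2
  · exact ⟨_, (mem_A hn).2 hu, by rw [two_nsmul, e', e2]⟩
  · exact ⟨_, A.neg_mem ((mem_A hn).2 hu), by rw [neg_nsmul, two_nsmul, e', e2]⟩

lemma descent (P Q : W.Point) (hP : P ∈ A) (hQ : Q ∈ A) :
    (∃ R ∈ A, P = 2 • R) ∨ (∃ R ∈ A, Q = 2 • R) ∨ ∃ R ∈ A, P - Q = 2 • R := by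
  rcases P with _ | ⟨x₁, y₁, h₁⟩
  · exact .inl ⟨0, A.zero_mem, by simp [← zero_def]⟩
  rcases Q with _ | ⟨x₂, y₂, h₂⟩
  · exact .inr (.inl ⟨0, A.zero_mem, by simp [← zero_def]⟩)
  have e1 := (ns_iff _ _).1 h₁
  have e2 := (ns_iff _ _).1 h₂
  obtain ⟨r₁, hr₁, rfl | c1⟩ := cls (c := -2) (e := 1) ((mem_A h₁).1 hP) (.inr rfl) (.inl rfl)
    (pos_facts h₁ hP).2 (by linear_combination -e1)
  · exact .inl (half hr₁ h₁)
  obtain ⟨r₂, hr₂, rfl | c2⟩ := cls (c := -2) (e := 1) ((mem_A h₂).1 hQ) (.inr rfl) (.inl rfl)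
    (pos_facts h₂ hQ).2 (by linear_combination -e2)
  · exact .inr (.inl (half hr₂ h₂))
  refine .inr (.inr ?_)
  by_cases hx : x₁ = x₂
  · subst hx
    rcases same_x h₁ h₂ with e | e
    · exact ⟨0, A.zero_mem, by rw [e]; simp⟩
    · exact ⟨_, hP, by rw [e, sub_neg_eq_add, two_nsmul]⟩
  · have hm := A.sub_mem hP hQ
    obtain ⟨y', h', e'⟩ := sub_ne h₁ h₂ hx
    rw [e'] at hm ⊢
    have hs : x₁ - x₂ ≠ 0 := sub_ne_zero.2 hx
    have hpos := (mem_A h').1 hm
    have ex : ((x₁ + x₂) * (x₁ * x₂ - 2) + 2 * y₁ * y₂) / (x₁ - x₂) ^ 2 =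
        |(x₁ * y₂ + x₂ * y₁) / ((x₁ - x₂) * (2 * r₁ * r₂))| ^ 2 := by
      have : (2 * r₁ * r₂) ^ 2 = x₁ * x₂ := by rw [c1, c2]; ring
      have p1 : 0 < x₁ := hP
      have p2 : 0 < x₂ := hQ
      rw [sq_abs, div_pow, mul_pow, this]
      field_simp
      linear_combination (-x₂ ^ 2) * e1 - x₁ ^ 2 * e2
    revert h' hpos
    rw [ex]
    intro h' _ _ hpos
    refine half (lt_of_le_of_ne (abs_nonneg _) fun h0 => ?_) h'
    rw [← h0] at hpos
    simp at hpos

end Crest.Agent.R323.EA
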