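import Crest.Agent.R323.Basic

/-! Row 323, task H: consecutive heights form a single-fold Diophantine set. -/

set_option autoImplicit false

namespace Crest.Agent.R323

namespace HT

/-- `a / b` is `t` in lowest terms. -/
def Cd (t : ℚ) (a b : ℕ) : Prop := a = t.num.natAbs ∧ b = t.den

theorem cd_iff {t : ℚ} (ht : 0 < t) (a b : ℕ) :
    Cd t a b ↔ a.Coprime b ∧ 0 < b ∧ (a : ℚ) / b = t := by
  constructor
  · rintro ⟨rfl, rfl⟩
    refine ⟨t.reduced, t.den_pos, ?_⟩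
    rw [Nat.cast_natAbs, abs_of_pos (Rat.num_pos.2 ht), Rat.num_div_den]
  · rintro ⟨h1, h2, rfl⟩
    have h3 : (0 : ℤ) < b := by exact_mod_cast h2
    have a1 := Rat.num_div_eq_of_coprime (a := a) h3 (by simpa using h1)
    have a2 := Rat.den_div_eq_of_coprime (a := a) h3 (by simpa using h1)
    simp only [Int.cast_natCast] at a1 a2
    exact ⟨by rw [a1]; simp, by exact_mod_cast a2.symm⟩

/-- `Phi` with cleared denominators. -/
def PhiN (a b c d e f : ℕ) : Prop :=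
  ((a * d) ^ 2 + (c * b) ^ 2) * e ^ 2 + 4 * (b * d) * (a * d + c * b) * (e * f) +
    (a * c + 2 * (b * d)) ^ 2 * f ^ 2 =
  2 * (a * d) * (c * b) * e ^ 2 + 2 * (a * c) * (a * d + c * b) * (e * f)

theorem phiN_iff {a b c d e f : ℕ} (hb : 0 < b) (hd : 0 < d) (hf : 0 < f) :
    PhiN a b c d e f ↔ Phi (a / b) (c / d) (e / f) := by
  have hb' : (b : ℚ) ≠ 0 := by positivity
  have hd' : (d : ℚ) ≠ 0 := by positivity
  have hf' : (f : ℚ) ≠ 0 := by positivity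
  rw [PhiN, ← Nat.cast_inj (R := ℚ), ← sub_eq_zero, Phi,
    ← mul_eq_zero_iff_right (show ((b : ℚ) * d * f) ^ 2 ≠ 0 by positivity)
      (a := ((a : ℚ) / b - c / d) ^ 2 * (e / f) ^ 2 - 2 * (a / b * (c / d) - 2) * (a / b + c / d) *
        (e / f) + (a / b * (c / d) + 2) ^ 2)]
  congr! 1
  push_cast
  field_simp
  ring

theorem sq_iff {a b : ℕ} (hb : 0 < b) : IsSquare (((a : ℚ) / b) ^ 3 - 2 * (a / b)) ↔
    ∃ w : ℕ, a ^ 3 * b = w * w + 2 * a * b ^ 3 := by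
  have hb' : (b : ℚ) ≠ 0 := by positivity
  constructor
  · rintro ⟨r, hr⟩
    have : IsSquare (((a : ℤ) ^ 3 * b - 2 * a * b ^ 3 : ℤ) : ℚ) := ⟨r * b ^ 2, by
      push_cast
      field_simp at hr
      linear_combination b * hr⟩
    obtain ⟨w, hw⟩ := Rat.isSquare_intCast_iff.1 this
    refine ⟨w.natAbs, ?_⟩
    zify
    rw [abs_mul_abs_self]
    linarith
  · rintro ⟨w, hw⟩
    have : (a : ℚ) ^ 3 * b = w * w + 2 * a * b ^ 3 := by exact_mod_cast hw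
    refine ⟨w / b ^ 2, ?_⟩
    field_simp
    linear_combination this

end HT

open HT in
theorem ht_of (h : EllStmt) : HtStmt := by
  obtain ⟨x, c, C, hc, hx, hinj, hh, hphi⟩ := h
  have pos : ∀ j, 1 ≤ j → 0 < x j := fun j hj => ((hx _).1 ⟨j, hj, rfl⟩).1
  have one : ∀ s j, 1 ≤ j → 1 ≤ 2 ^ s * j := fun s j hj => Nat.mul_pos (by positivity) hj
  have In : ∀ s, SF fun v : Fin 2 → ℕ => ∃ j, 1 ≤ j ∧ Cd (x (2 ^ s * j)) (v 0) (v 1) := fun s => by
    induction s with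
    | zero =>
      refine (SF.and (R := fun v : Fin 2 → ℕ => (v 0).Coprime (v 1) ∧ 0 < v 1 ∧ 0 < v 0) (by sf)
        (SF.ex (S := fun w v => v 0 ^ 3 * v 1 = w * w + 2 * v 0 * v 1 ^ 3) (by sf)
          fun a w w' h h' => Nat.mul_self_inj.1 (by omega))).congr fun v => ?_
      simp only [pow_zero, one_mul]
      constructor
      · rintro ⟨⟨h1, h2, h3⟩, h4⟩
        obtain ⟨j, hj, e⟩ := (hx ((v 0 : ℚ) / v 1)).2 ⟨by positivity, (sq_iff h2).2 h4⟩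
        exact ⟨j, hj, (cd_iff (pos j hj) _ _).2 ⟨h1, h2, e.symm⟩⟩
      · rintro ⟨j, hj, h⟩
        obtain ⟨h1, h2, e⟩ := (cd_iff (pos j hj) _ _).1 h
        obtain ⟨h3, h4⟩ := (hx _).1 ⟨j, hj, e.symm⟩
        refine ⟨⟨h1, h2, Nat.pos_of_ne_zero fun h0 => ?_⟩, (sq_iff h2).1 h4⟩
        simp [h0] at h3
    | succ s ih =>
      let S : (Fin 2 → ℕ) → (Fin 2 → ℕ) → Prop := fun w v =>
        (∃ j, 1 ≤ j ∧ Cd (x (2 ^ s * j)) (w 0) (w 1)) ∧ (v 0).Coprime (v 1) ∧ 0 < v 1 ∧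
          PhiN (w 0) (w 1) (w 0) (w 1) (v 0) (v 1)
      have key : ∀ w v, S w v ↔ ∃ j, 1 ≤ j ∧ Cd (x (2 ^ s * j)) (w 0) (w 1) ∧
          Cd (x (2 ^ (s + 1) * j)) (v 0) (v 1) := fun w v => by
        have e : ∀ j, 2 ^ (s + 1) * j = 2 ^ s * j + 2 ^ s * j := fun j => by ring
        constructor
        · rintro ⟨⟨j, hj, h⟩, h1, h2, h3⟩
          obtain ⟨-, a2, a3⟩ := (cd_iff (pos _ (one s j hj)) _ _).1 h
          rw [phiN_iff a2 a2 h2, a3, hphi _ _ _ (one s j hj) le_rfl] at h3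
          exact ⟨j, hj, h, (cd_iff (pos _ (one _ j hj)) _ _).2 ⟨h1, h2, by simpa [e] using h3⟩⟩
        · rintro ⟨j, hj, h, h'⟩
          obtain ⟨-, a2, a3⟩ := (cd_iff (pos _ (one s j hj)) _ _).1 h
          obtain ⟨b1, b2, b3⟩ := (cd_iff (pos _ (one _ j hj)) _ _).1 h'
          refine ⟨⟨j, hj, h⟩, b1, b2, ?_⟩
          rw [phiN_iff a2 a2 b2, a3, hphi _ _ _ (one s j hj) le_rfl, b3, e]
          exact Or.inl rfl
      refine (SF.exv (S := S) (SF.and (SF.comp2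
        (S := fun a b => ∃ j, 1 ≤ j ∧ Cd (x (2 ^ s * j)) a b) ih (.proj _) (.proj _))
        (by unfold PhiN; sf)) fun v w w' h h' => ?_).congr fun v => ?_
      · obtain ⟨j, hj, a1, a2⟩ := (key _ _).1 h
        obtain ⟨j', hj', b1, b2⟩ := (key _ _).1 h'
        have := hinj _ _ (one _ j hj) (one _ j' hj')
          (((cd_iff (pos _ (one _ j hj)) _ _).1 a2).2.2.symm.trans
            ((cd_iff (pos _ (one _ j' hj')) _ _).1 b2).2.2)
        obtain rfl : j = j' := Nat.eq_of_mul_eq_mul_left (by positivity) this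
        funext k
        fin_cases k
        exacts [a1.1.trans b1.1.symm, a1.2.trans b1.2.symm]
      · simp only [key]
        exact ⟨fun ⟨_, j, hj, _, h⟩ => ⟨j, hj, h⟩, fun ⟨j, hj, h⟩ =>
          ⟨![(x (2 ^ s * j)).num.natAbs, (x (2 ^ s * j)).den], j, hj, ⟨rfl, rfl⟩, h⟩⟩
  obtain ⟨s, hs⟩ := pow_unbounded_of_one_lt ((100 + 100 * |C|) / c) (one_lt_two (α := ℝ))
  rw [div_lt_iff₀ hc] at hs
  have hs' : 100 + 100 * |C| ≤ c * (2 ^ s) ^ 2 := by
    have : (1 : ℝ) ≤ 2 ^ s := one_le_pow₀ one_le_two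
    nlinarith [mul_pos hc (zero_lt_one.trans_le this)]
  have := abs_nonneg C
  have := le_abs_self C
  let H : ℕ → ℕ := fun j => (x (2 ^ s * j)).num.natAbs
  have hH : ∀ j, 1 ≤ j → |Real.log (H j) - c * (2 ^ s) ^ 2 * (j : ℝ) ^ 2| ≤
      c * (2 ^ s) ^ 2 / 100 := fun j hj => by
    have := hh _ (one s j hj)
    push_cast at this
    rw [mul_pow, ← mul_assoc] at this
    exact this.trans (by linarith)
  have mono : ∀ i j, 1 ≤ i → i < j → H i < H j := fun i j hi hij => by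
    by_contra hle
    have a := abs_le.1 (hH i hi)
    have b := abs_le.1 (hH j (by omega))
    have h0 : 0 < H j := Int.natAbs_pos.2 (Rat.num_pos.2 (pos _ (one s j (by omega)))).ne'
    have l : Real.log (H j) ≤ Real.log (H i) :=
      Real.log_le_log (by exact_mod_cast h0) (by exact_mod_cast not_lt.1 hle)
    have r : (i : ℝ) ^ 2 + 1 ≤ (j : ℝ) ^ 2 := by
      exact_mod_cast (Nat.pow_lt_pow_left hij two_ne_zero : i ^ 2 + 1 ≤ j ^ 2)
    nlinarith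
  refine ⟨H, c * (2 ^ s) ^ 2, by linarith, hH, ?_⟩
  set p := (x (2 ^ s)).num.natAbs
  set q := (x (2 ^ s)).den
  obtain ⟨-, q0, hpq⟩ := (cd_iff (pos (2 ^ s) Nat.one_le_two_pow) p q).1 ⟨rfl, rfl⟩
  let S : (Fin 2 → ℕ) → (Fin 2 → ℕ) → Prop := fun w v =>
    (∃ j, 1 ≤ j ∧ Cd (x (2 ^ s * j)) (v 0) (w 0)) ∧ (v 1).Coprime (w 1) ∧ 0 < w 1 ∧ v 0 < v 1 ∧
      PhiN (v 0) (w 0) p q (v 1) (w 1)
  have key : ∀ w v, S w v ↔ ∃ j, 1 ≤ j ∧ Cd (x (2 ^ s * j)) (v 0) (w 0) ∧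
      Cd (x (2 ^ s * (j + 1))) (v 1) (w 1) := fun w v => by
    have le : ∀ j, 1 ≤ j → 2 ^ s ≤ 2 ^ s * j := fun j hj => Nat.le_mul_of_pos_right _ hj
    constructor
    · rintro ⟨⟨j, hj, h⟩, h1, h2, h3, h4⟩
      obtain ⟨-, a2, a3⟩ := (cd_iff (pos _ (one s j hj)) _ _).1 h
      rw [phiN_iff a2 q0 h2, a3, hpq, hphi _ _ _ Nat.one_le_two_pow (le j hj)] at h4
      rcases h4 with h4 | ⟨h4, h5⟩
      · exact ⟨j, hj, h, (cd_iff (pos _ (one _ _ (by omega))) _ _).2 ⟨h1, h2, h4⟩⟩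
      · have hj' : 1 < j := (Nat.lt_mul_iff_one_lt_right (by positivity)).1 h4
        rw [← Nat.mul_sub_one] at h5
        have b := (cd_iff (pos _ (one s (j - 1) (by omega))) _ _).2 ⟨h1, h2, h5⟩
        have := mono (j - 1) j (by omega) (by omega)
        rw [h.1, b.1] at h3
        exact absurd h3 this.le.not_gt
    · rintro ⟨j, hj, h, h'⟩
      obtain ⟨-, a2, a3⟩ := (cd_iff (pos _ (one s j hj)) _ _).1 h
      obtain ⟨b1, b2, b3⟩ := (cd_iff (pos _ (one s (j + 1) (by omega))) _ _).1 h'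
      refine ⟨⟨j, hj, h⟩, b1, b2, ?_, ?_⟩
      · rw [h.1, h'.1]; exact mono j (j + 1) hj (by omega)
      · rw [phiN_iff a2 q0 b2, a3, hpq, hphi _ _ _ Nat.one_le_two_pow (le j hj), b3]
        exact Or.inl rfl
  refine (SF.exv (S := S) (SF.and (SF.comp2
    (S := fun a b => ∃ j, 1 ≤ j ∧ Cd (x (2 ^ s * j)) a b) (In s) (.proj _) (.proj _))
    (by unfold PhiN; sf)) fun v w w' h h' => ?_).congr fun v => ?_
  · obtain ⟨j, hj, a1, a2⟩ := (key _ _).1 h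
    obtain ⟨j', hj', b1, b2⟩ := (key _ _).1 h'
    have e : H j = H j' := a1.1.symm.trans b1.1
    obtain rfl : j = j' := by
      rcases lt_trichotomy j j' with l | l | l
      exacts [absurd e (mono _ _ hj l).ne, l, absurd e (mono _ _ hj' l).ne']
    funext k
    fin_cases k
    exacts [a1.2.trans b1.2.symm, a2.2.trans b2.2.symm]
  · simp only [key]
    exact ⟨fun ⟨_, j, hj, h, h'⟩ => ⟨j, hj, h.1, h'.1⟩, fun ⟨j, hj, h, h'⟩ =>
      ⟨![(x (2 ^ s * j)).den, (x (2 ^ s * (j + 1))).den], j, hj, ⟨h, rfl⟩, h', rfl⟩⟩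

end Crest.Agent.R323
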