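import Crest.Agent.R323.Basic

/-! Row 323, task P: single-fold exponentiation from the height sequence. -/

set_option autoImplicit false

namespace Crest.Agent.R323

open Pell

namespace PW

theorem pell_iff {a : ℕ} (a1 : 1 < a) (x y : ℕ) :
    x * x + y * y = a * a * y * y + 1 ↔ ∃ n, x = xn a1 n ∧ y = yn a1 n := by
  have h : 1 ≤ a * a := by nlinarith
  have e : (a * a - 1) * y * y + y * y = a * a * y * y := by zify [h]; ring
  constructor
  · intro h
    refine eq_pell a1 (?_ : x * x - (a * a - 1) * y * y = 1)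
    omega
  · rintro ⟨n, rfl, rfl⟩
    have : xn a1 n * xn a1 n - (a * a - 1) * yn a1 n * yn a1 n = 1 := pell_eq a1 n
    omega

theorem xn_succ' {a : ℕ} (a1 : 1 < a) (n : ℕ) :
    xn a1 (n + 1) + yn a1 n = xn a1 n * a + a * a * yn a1 n := by
  have h : 1 ≤ a * a := by nlinarith
  have : xn a1 (n + 1) = xn a1 n * a + (a * a - 1) * yn a1 n := xn_succ a1 n
  rw [this]
  zify [h]; ring

theorem xn_le {a : ℕ} (a1 : 1 < a) : ∀ n, xn a1 n ≤ (2 * a) ^ n
  | 0 => by simp
  | 1 => by rw [xn_one, pow_one]; omega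
  | n + 2 => by
    have := xn_succ_succ a1 n
    have h := Nat.mul_le_mul_left (2 * a) (xn_le a1 (n + 1))
    rw [pow_succ']
    omega

theorem est {c : ℝ} (hc : 100 ≤ c) {j u u' : ℕ} (hj : 1 ≤ j)
    (h1 : |Real.log u - c * (j : ℝ) ^ 2| ≤ c / 100)
    (h2 : |Real.log u' - c * ((j + 1 : ℕ) : ℝ) ^ 2| ≤ c / 100) :
    2 ^ (j + 1) < u' / u ∧ (2 * (u' / u)) ^ j ≤ u * u' ∧ u * u' < (u' / u) ^ (j + 1) := by
  have hj' : (1 : ℝ) ≤ j := by exact_mod_cast hj
  rw [abs_le] at h1 h2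
  push_cast at h2
  have l2 : Real.log 2 < 1 := by have := Real.log_two_lt_d9; linarith
  have l2' : 0 < Real.log 2 := Real.log_pos one_lt_two
  have cj : c ≤ c * j := by nlinarith
  have pos : ∀ n : ℕ, 0 < Real.log n → 0 < n := fun n h => Nat.pos_of_ne_zero fun h0 => by
    simp [h0] at h
  have hu : 0 < u := pos u (by nlinarith)
  have hu' : 0 < u' := pos u' (by nlinarith)
  have ru : (0 : ℝ) < u := by exact_mod_cast hu
  have ru' : (0 : ℝ) < u' := by exact_mod_cast hu'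
  have hle : u ≤ u' := by
    have : (u : ℝ) ≤ u' := (Real.log_le_log_iff ru ru').1 (by nlinarith)
    exact_mod_cast this
  set a := u' / u with ha
  have a0 : 0 < a := Nat.div_pos hle hu
  have ra : (0 : ℝ) < a := by exact_mod_cast a0
  have b1 : Real.log a + Real.log u ≤ Real.log u' := by
    rw [← Real.log_mul ra.ne' ru.ne']
    exact Real.log_le_log (by positivity) (by exact_mod_cast Nat.div_mul_le_self u' u)
  have b2 : Real.log u' ≤ Real.log 2 + Real.log a + Real.log u := by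
    rw [← Real.log_mul two_ne_zero ra.ne', ← Real.log_mul (by positivity) ru.ne']
    refine Real.log_le_log ru' ?_
    have := Nat.lt_mul_div_succ u' hu
    have : u' ≤ 2 * a * u := by nlinarith
    exact_mod_cast this
  refine ⟨?_, ?_, ?_⟩
  · have : ((2 : ℝ) ^ (j + 1)) < a := by
      rw [← Real.log_lt_log_iff (by positivity) ra, Real.log_pow]
      push_cast
      nlinarith
    exact_mod_cast this
  · have : ((2 * a : ℝ) ^ j) ≤ u * u' := by
      rw [← Real.log_le_log_iff (by positivity) (by positivity), Real.log_pow,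
        Real.log_mul two_ne_zero ra.ne', Real.log_mul ru.ne' ru'.ne']
      have : Real.log 2 + Real.log a ≤ c * (2 * j + 2) - c * 0.9 := by nlinarith
      nlinarith
    exact_mod_cast this
  · have : (u * u' : ℝ) < (a : ℝ) ^ (j + 1) := by
      rw [← Real.log_lt_log_iff (by positivity) (by positivity), Real.log_pow,
        Real.log_mul ru.ne' ru'.ne']
      push_cast
      have : c * (2 * j + 1) - c * 0.03 ≤ Real.log a := by nlinarith
      nlinarith
    exact_mod_cast this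

theorem idx {a : ℕ} (a1 : 1 < a) {m n : ℕ} (hm : m + 1 < a) (h : yn a1 m % (a - 1) = n) :
    m = n := by
  rw [← h, yn_modEq_a_sub_one a1 m, Nat.mod_eq_of_lt (by omega)]

/-- A large Pell parameter and a Pell solution of known index. -/
theorem big (h : HtStmt) : ∃ (A : ℕ → ℕ) (h1 : ∀ j, 1 < A j), (∀ j, 2 ^ (j + 2) < A j) ∧
    SF2 (fun j _ => A j) ∧ SF2 fun j _ => xn (h1 j) (j + 1) := by
  obtain ⟨H, c, hc, hH, hS⟩ := h
  have e := fun j => est hc (Nat.le_add_left 1 j) (hH _ (by omega)) (hH (j + 1 + 1) (by omega))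
  let A : ℕ → ℕ := fun j => H (j + 1 + 1) / H (j + 1)
  have h1 : ∀ j, 1 < A j := fun j => Nat.one_le_two_pow.trans_lt (e j).1
  let S : (Fin 4 → ℕ) → ℕ → Prop := fun w j => (∃ i, 1 ≤ i ∧ w 0 = H i ∧ w 1 = H (i + 1)) ∧
    w 2 * w 2 + w 3 * w 3 = w 1 / w 0 * (w 1 / w 0) * w 3 * w 3 + 1 ∧ w 2 ≤ w 0 * w 1 ∧
    w 0 * w 1 + w 3 < w 2 * (w 1 / w 0) + w 1 / w 0 * (w 1 / w 0) * w 3 ∧
    w 3 % (w 1 / w 0 - 1) = j + 1
  have lt : ∀ j, j + 1 + 1 < A j := fun j => Nat.lt_two_pow_self.trans (e j).1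
  have key : ∀ w j, S w j ↔
      w = ![H (j + 1), H (j + 1 + 1), xn (h1 j) (j + 1), yn (h1 j) (j + 1)] := fun w j => by
    constructor
    · rintro ⟨⟨i, hi, e0, e1⟩, e2, e3, e4, e5⟩
      obtain ⟨i, rfl⟩ : ∃ k, i = k + 1 := ⟨i - 1, by omega⟩
      rw [e0, e1] at e2 e3 e4 e5
      obtain ⟨n, hx, hy⟩ := (pell_iff (h1 i) _ _).1 e2
      rw [hx, hy] at e4
      rw [hx] at e3
      have e4' : H (i + 1) * H (i + 1 + 1) < xn (h1 i) (n + 1) := by
        have := xn_succ' (h1 i) n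
        simp only [A] at this
        omega
      have a1 := (strictMono_x (h1 i)).lt_iff_lt.1
        (((xn_le (h1 i) (i + 1)).trans (e i).2.1).trans_lt e4')
      have a2 := (strictMono_x (h1 i)).lt_iff_lt.1
        (e3.trans_lt ((e i).2.2.trans_le (xn_ge_a_pow (h1 i) _)))
      obtain rfl : n = i + 1 := by omega
      rw [hy] at e5
      obtain rfl : i = j := by have := idx (h1 i) (lt i) e5; omega
      funext k
      fin_cases k
      exacts [e0, e1, hx, hy]
    · rintro rfl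
      refine ⟨⟨j + 1, by omega, rfl, rfl⟩, (pell_iff (h1 j) _ _).2 ⟨_, rfl, rfl⟩,
        (xn_le (h1 j) (j + 1)).trans (e j).2.1, ?_, ?_⟩
      · have := xn_succ' (h1 j) (j + 1)
        have h2 := (e j).2.2.trans_le (xn_ge_a_pow (h1 j) _)
        change H (j + 1) * H (j + 1 + 1) + yn (h1 j) (j + 1) <
          xn (h1 j) (j + 1) * A j + A j * A j * yn (h1 j) (j + 1)
        omega
      · change yn (h1 j) (j + 1) % (A j - 1) = j + 1
        rw [yn_modEq_a_sub_one, Nat.mod_eq_of_lt (by have := lt j; omega)]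
  have fn : ∀ F : (Fin 4 → ℕ) → ℕ, SFn F → SF2 fun j _ =>
      F ![H (j + 1), H (j + 1 + 1), xn (h1 j) (j + 1), yn (h1 j) (j + 1)] := fun F hF => by
    refine SFn.of_graph (S := fun x a => ∃ w, S w (a 0) ∧ x = F w) (SF.exv
      (S := fun w (v : Option (Fin 2) → ℕ) => S w (v (some 0)) ∧ v none = F w) ?_ ?_) ?_
    · refine SF.and (SF.and (SF.comp2
        (S := fun x y => ∃ i, 1 ≤ i ∧ x = H i ∧ y = H (i + 1)) hS (.proj _) (.proj _)) (by sf))
        (SF.eq (.proj _) (hF.reindex _))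
    · exact fun a w w' h h' => ((key _ _).1 h.1).trans ((key _ _).1 h'.1).symm
    · simp [key]
  exact ⟨A, h1, fun j => (e j).1, fn (fun w => w 1 / w 0) (by sf), fn (fun w => w 2) (by sf)⟩

end PW

open PW in
theorem pow_of (h : HtStmt) : PowStmt := by
  obtain ⟨A, h1, h2, hA, hX⟩ := big h
  let S : (Fin 2 → ℕ) → ℕ → ℕ → Prop := fun w b n =>
    w 0 * w 0 + w 1 * w 1 = A (b * n) * A (b * n) * w 1 * w 1 + 1 ∧
      w 0 ≤ xn (h1 (b * n)) (b * n + 1) ∧ w 1 % (A (b * n) - 1) = n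
  have lt : ∀ j, j + 2 < A j := fun j => Nat.lt_two_pow_self.trans (h2 j)
  have key : ∀ w b n, 0 < b → (S w b n ↔ w = ![xn (h1 (b * n)) n, yn (h1 (b * n)) n]) :=
    fun w b n hb => by
      have hn : n ≤ b * n := Nat.le_mul_of_pos_left n hb
      have := lt (b * n)
      constructor
      · rintro ⟨e1, e2, e3⟩
        obtain ⟨m, hx, hy⟩ := (pell_iff (h1 _) _ _).1 e1
        rw [hx, (strictMono_x _).le_iff_le] at e2
        rw [hy] at e3
        obtain rfl := idx (h1 _) (by omega) e3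
        funext k
        fin_cases k
        exacts [hx, hy]
      · rintro rfl
        refine ⟨(pell_iff (h1 _) _ _).2 ⟨_, rfl, rfl⟩, (strictMono_x _).monotone (by omega), ?_⟩
        change yn _ n % _ = n
        rw [yn_modEq_a_sub_one, Nat.mod_eq_of_lt (by omega)]
  have val : ∀ b n, 0 < b → 0 < n → (xn (h1 (b * n)) n - yn (h1 (b * n)) n * (A (b * n) - b)) %
      (2 * A (b * n) * b - b * b - 1) = b ^ n := fun b n hb hn => by
    have l1 : b ^ n < A (b * n) := by
      refine lt_of_le_of_lt ?_ (h2 _)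
      calc b ^ n ≤ (2 ^ b) ^ n := Nat.pow_le_pow_left Nat.lt_two_pow_self.le n
        _ ≤ _ := by rw [← pow_mul]; exact Nat.pow_le_pow_right two_pos (by omega)
    generalize h1 (b * n) = a1
    generalize A (b * n) = a at a1 l1 ⊢
    have l2 := eq_pow_of_pell_lem hb.ne' hn.ne' l1
    have l3 := x_sub_y_dvd_pow a1 b n
    have l4 : b < a := (Nat.le_self_pow hn.ne' b).trans_lt l1
    have l5 : yn a1 n * (a - b) ≤ xn a1 n := by
      have p := (pell_iff a1 _ _).2 ⟨n, rfl, rfl⟩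
      obtain ⟨k, rfl⟩ : ∃ k, a = b + k := ⟨a - b, by omega⟩
      rw [Nat.add_sub_cancel_left]
      refine Nat.mul_self_le_mul_self_iff.1 ?_
      have : 1 * (yn a1 n * yn a1 n) ≤ b * b * (yn a1 n * yn a1 n) :=
        Nat.mul_le_mul_right _ (Nat.mul_pos hb hb)
      nlinarith [Nat.zero_le (b * k * (yn a1 n * yn a1 n))]
    have l6 : b * b + 1 ≤ 2 * a * b := by nlinarith
    have l7 : ((2 * a * b - b * b - 1 : ℕ) : ℤ) = 2 * a * b - b * b - 1 := by
      rw [Nat.sub_sub, Nat.cast_sub l6]; push_cast; ring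
    have l8 : b ^ n < 2 * a * b - b * b - 1 := by
      rw [← l7] at l2; exact_mod_cast l2
    rw [← Nat.mod_eq_of_lt l8]
    refine (Nat.modEq_iff_dvd.2 ?_ : _ ≡ _ [MOD _])
    rw [l7, Nat.cast_sub l5]
    convert l3 using 1
    simp only [xz, yz]
    push_cast [Nat.cast_sub l4.le]
    ring
  have hA' : SFn fun v : Option (Fin 2) ⊕ Fin 2 → ℕ =>
      A (v (.inl (some 0)) * v (.inl (some 1))) := hA.comp (g := fun _ => 0) (by sf) (by sf)
  have hX' : SFn fun v : Option (Fin 2) ⊕ Fin 2 → ℕ =>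
      xn (h1 (v (.inl (some 0)) * v (.inl (some 1)))) (v (.inl (some 0)) * v (.inl (some 1)) + 1) :=
    hX.comp (g := fun _ => 0) (by sf) (by sf)
  unfold PowStmt SF2
  refine SFn.of_graph (S := fun x a => (a 1 = 0 ∧ x = 1) ∨ (0 < a 1 ∧ ((a 0 = 0 ∧ x = 0) ∨
    (0 < a 0 ∧ ∃ w, 0 < a 0 ∧ S w (a 0) (a 1) ∧ x = (w 0 - w 1 * (A (a 0 * a 1) - a 0)) %
      (2 * A (a 0 * a 1) * a 0 - a 0 * a 0 - 1))))) ?_ fun a x => ?_
  · refine SF.or (by sf) (SF.and (by sf) (SF.or (by sf) (SF.and (by sf) (SF.exv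
      (S := fun w (v : Option (Fin 2) → ℕ) => 0 < v (some 0) ∧ S w (v (some 0)) (v (some 1)) ∧
        v none = (w 0 - w 1 * (A (v (some 0) * v (some 1)) - v (some 0))) %
        (2 * A (v (some 0) * v (some 1)) * v (some 0) - v (some 0) * v (some 0) - 1)) ?_ ?_))
      fun _ h h' => by omega)) fun _ h h' => by omega
    · simp only [S]
      sf
    · exact fun a w w' h h' => ((key _ _ _ h.1).1 h.2.1).trans ((key _ _ _ h.1).1 h'.2.1).symm
  · rcases Nat.eq_zero_or_pos (a 1) with h1 | h1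
    · simp [h1]
    · rcases Nat.eq_zero_or_pos (a 0) with h0 | h0
      · simp [h0, h1, h1.ne']
      · simp [h0, h1, h1.ne', h0.ne', key _ _ _ h0, val _ _ h0 h1]

end Crest.Agent.R323
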