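import Crest.Agent.R323.Bin

/-! Row 323: graphs of partial recursive functions are single-fold Diophantine. -/

set_option autoImplicit false
open Finset

namespace Crest.Agent.R323

variable {α : Type} {f g : (α → ℕ) → ℕ}

theorem SFn.pair (hf : SFn f) (hg : SFn g) : SFn fun a => Nat.pair (f a) (g a) :=
  SFn.ite (SF.lt hf hg) ((SF.le hg hf).congr fun _ => not_lt.symm) ((hg.mul hg).add hf)
    (((hf.mul hf).add hf).add hg)

theorem SFn.unpair1 (hf : SFn f) : SFn fun a => (f a).unpair.1 :=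
  SFn.of_graph (S := fun x a => ∃ y, Nat.pair x y = f a)
    (SF.ex (S := fun y v => Nat.pair (v none) y = f fun i => v (some i))
      (SF.eq ((SFn.proj _).pair (.proj _)) hf.up.up)
      fun _ _ _ h1 h2 => (Nat.pair_eq_pair.1 (h1.trans h2.symm)).2)
    fun a _ => ⟨fun ⟨_, h⟩ => by rw [← h, Nat.unpair_pair],
      fun h => ⟨_, h ▸ Nat.pair_unpair (f a)⟩⟩

theorem SFn.unpair2 (hf : SFn f) : SFn fun a => (f a).unpair.2 :=
  SFn.of_graph (S := fun x a => Nat.pair (f a).unpair.1 x = f a)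
    (SF.eq (hf.unpair1.up.pair (.proj _)) hf.up)
    fun a _ => ⟨fun h => by rw [← h, Nat.unpair_pair], fun h => h ▸ Nat.pair_unpair (f a)⟩

theorem SF.mem {F : ℕ →. ℕ} (h : SF fun v : Fin 2 → ℕ => v 1 ∈ F (v 0)) (hf : SFn f)
    (hg : SFn g) : SF fun a => g a ∈ F (f a) :=
  SF.comp2 (S := fun x y => y ∈ F x) h hf hg

namespace Rec

/-- primitive recursion -/
def pr (F G : ℕ →. ℕ) (a n : ℕ) : Part ℕ :=
  n.rec (F a) fun y IH => do let i ← IH; G (Nat.pair a (Nat.pair y i))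

theorem mem_pr_succ {F G : ℕ →. ℕ} {a n y : ℕ} :
    y ∈ pr F G a (n + 1) ↔ ∃ i ∈ pr F G a n, y ∈ G (Nat.pair a (Nat.pair n i)) :=
  Part.mem_bind_iff

/-- traces of the recursion -/
def Tr (F G : ℕ →. ℕ) (a n : ℕ) (d : ℕ → ℕ) : Prop :=
  d 0 ∈ F a ∧ ∀ i < n, d (i + 1) ∈ G (Nat.pair a (Nat.pair i (d i)))

theorem Tr.mem {F G : ℕ →. ℕ} {a n : ℕ} {d : ℕ → ℕ} (h : Tr F G a n d) {i : ℕ} (hi : i ≤ n) :
    d i ∈ pr F G a i := by
  induction i with
  | zero => exact h.1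
  | succ i ih => exact mem_pr_succ.2 ⟨_, ih (by omega), h.2 i hi⟩

theorem Tr.congr {F G : ℕ →. ℕ} {a n : ℕ} {d d' : ℕ → ℕ} (h : Tr F G a n d)
    (e : ∀ i ≤ n, d' i = d i) : Tr F G a n d' :=
  ⟨e 0 (by omega) ▸ h.1, fun i hi => by rw [e i hi.le, e (i + 1) hi]; exact h.2 i hi⟩

theorem exists_tr {F G : ℕ →. ℕ} {a n y : ℕ} (h : y ∈ pr F G a n) :
    ∃ d, Tr F G a n d ∧ d n = y := by
  induction n generalizing y with
  | zero => exact ⟨fun _ => y, ⟨h, fun i hi => by omega⟩, rfl⟩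
  | succ n ih =>
    obtain ⟨x, h1, h2⟩ := mem_pr_succ.1 h
    obtain ⟨d, h3, rfl⟩ := ih h1
    refine ⟨Function.update d (n + 1) y, ⟨by simpa using h3.1, fun i hi => ?_⟩, by simp⟩
    rw [Function.update_of_ne (by omega : i ≠ n + 1)]
    rcases Nat.lt_succ_iff_lt_or_eq.1 hi with h | rfl
    · rw [Function.update_of_ne (by omega)]; exact h3.2 i h
    · rwa [Function.update_self]

theorem sum_digit (B s n : ℕ) : ∑ i ∈ range n, s / B ^ i % B * B ^ i = s % B ^ n := by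
  induction n with
  | zero => simp [Nat.mod_one]
  | succ n ih => rw [sum_range_succ, ih, Nat.mod_pow_succ, mul_comm]

/-- the coded trace -/
def Cd (F G : ℕ →. ℕ) (a n y B s j : ℕ) : Prop :=
  (s < B ^ (n + 1) ∧ Tr F G a n fun i => s / B ^ i % B) ∧ (s / B ^ n % B = y ∧ j ≤ n) ∧
    s / B ^ j % B + 1 = B ∧ ∀ i < j, s / B ^ i % B + 1 ≠ B

theorem Cd.unique {F G : ℕ →. ℕ} {a n y B s j B' s' j' : ℕ} (h : Cd F G a n y B s j)
    (h' : Cd F G a n y B' s' j') : B = B' ∧ s = s' ∧ j = j' := by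
  obtain ⟨⟨h1, h2⟩, ⟨-, h3⟩, h4, h5⟩ := h
  obtain ⟨⟨h1', h2'⟩, ⟨-, h3'⟩, h4', h5'⟩ := h'
  have e : ∀ i ≤ n, s / B ^ i % B = s' / B' ^ i % B' := fun i hi =>
    Part.mem_unique (h2.mem hi) (h2'.mem hi)
  have l1 : s / B ^ j' % B < B := Nat.mod_lt _ (by omega)
  have l2 : s' / B' ^ j % B' < B' := Nat.mod_lt _ (by omega)
  have e1 := e j h3
  have e2 := e j' h3'
  obtain rfl : B = B' := by omega
  obtain rfl : s = s' := by
    rw [← Nat.mod_eq_of_lt h1, ← Nat.mod_eq_of_lt h1', ← sum_digit, ← sum_digit]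
    exact sum_congr rfl fun i hi => by rw [e i (Nat.lt_succ_iff.1 (mem_range.1 hi))]
  refine ⟨rfl, rfl, le_antisymm (not_lt.1 fun h => h5 _ h h4') (not_lt.1 fun h => h5' _ h h4)⟩

theorem exists_cd {F G : ℕ →. ℕ} {a n y : ℕ} (h : y ∈ pr F G a n) :
    ∃ B s j, Cd F G a n y B s j := by
  obtain ⟨d, h1, rfl⟩ := exists_tr h
  obtain ⟨m, hm, h2⟩ := exists_max_image (range (n + 1)) d ⟨0, by simp⟩
  have h3 : ∀ k < n + 1, d k < d m + 1 := fun k hk => Nat.lt_succ_of_le (h2 k (mem_range.2 hk))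
  have h4 : ∀ i ≤ n, (∑ k ∈ range (n + 1), d k * (d m + 1) ^ k) / (d m + 1) ^ i % (d m + 1) = d i :=
    fun i hi => Bin.digit h3 (by omega)
  have h5 : ∃ j, d j = d m := ⟨m, rfl⟩
  have h6 : Nat.find h5 ≤ n := (Nat.find_min' h5 rfl).trans (Nat.lt_succ_iff.1 (mem_range.1 hm))
  refine ⟨d m + 1, _, Nat.find h5, ⟨Bin.sum_lt _ h3, h1.congr h4⟩, ⟨h4 n le_rfl, h6⟩,
    by rw [h4 _ h6, Nat.find_spec h5], fun i hi => ?_⟩
  rw [h4 i (by omega)]
  have := Nat.find_min h5 hi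
  omega

theorem prec (hp : PowStmt) (hq : BuqStmt) {F G : ℕ →. ℕ}
    (hF : SF fun v : Fin 2 → ℕ => v 1 ∈ F (v 0)) (hG : SF fun v : Fin 2 → ℕ => v 1 ∈ G (v 0)) :
    SF fun v : Fin 2 → ℕ => v 1 ∈ pr F G (v 0).unpair.1 (v 0).unpair.2 := by
  have dg : ∀ {α : Type} {B s i : (α → ℕ) → ℕ}, SFn B → SFn s → SFn i →
      SFn fun a => s a / B a ^ i a % B a := fun hB hs hi => (hs.div (SFn.pow hp hB hi)).mod hB
  refine (SF.exv (β := Fin 3)
    (S := fun w v => Cd F G (v 0).unpair.1 (v 0).unpair.2 (v 1) (w 0) (w 1) (w 2)) ?_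
    fun v w w' h h' => ?_).congr fun v => ⟨fun ⟨w, h⟩ => ?_, fun h => ?_⟩
  · have hn : SFn fun v : Fin 2 ⊕ Fin 3 → ℕ => (v (.inl 0)).unpair.2 := (SFn.proj _).unpair2
    refine ((SF.lt (.proj _) (SFn.pow hp (.proj _) (hn.add (.const 1)))).and
      ((hF.mem (SFn.proj _).unpair1 (dg (.proj _) (.proj _) (.const 0))).and ?_)).and
      (((SF.eq (dg (.proj _) (.proj _) hn) (.proj _)).and (SF.le (.proj _) hn)).and
        ((SF.eq ((dg (.proj _) (.proj _) (.proj _)).add (.const 1)) (.proj _)).and ?_))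
    · exact hq (Fin 2 ⊕ Fin 3) (fun i v => v (.inr 1) / v (.inr 0) ^ (i + 1) % v (.inr 0) ∈
        G (Nat.pair (v (.inl 0)).unpair.1 (Nat.pair i (v (.inr 1) / v (.inr 0) ^ i % v (.inr 0)))))
        _ (hG.mem ((SFn.proj _).unpair1.pair ((SFn.proj _).pair (dg (.proj _) (.proj _) (.proj _))))
          (dg (.proj _) (.proj _) ((SFn.proj _).add (.const 1)))) hn
    · exact hq (Fin 2 ⊕ Fin 3) (fun i v => v (.inr 1) / v (.inr 0) ^ i % v (.inr 0) + 1 ≠ v (.inr 0)) _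
        (SF.ne ((dg (.proj _) (.proj _) (.proj _)).add (.const 1)) (.proj _)) (.proj _)
  · obtain ⟨h1, h2, h3⟩ := h.unique h'
    funext i
    fin_cases i
    exacts [h1, h2, h3]
  · exact h.2.1.1 ▸ h.1.2.mem le_rfl
  · obtain ⟨B, s, j, h⟩ := exists_cd h
    exact ⟨![B, s, j], h⟩

end Rec

theorem rec' (hp : PowStmt) (hq : BuqStmt) : RecStmt := by
  intro f hf
  induction hf with
  | zero => exact (SF.eq (.proj 1) (.const 0)).congr fun v => Part.mem_some_iff.symm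
  | succ => exact (SF.eq (.proj 1) ((SFn.proj 0).add (.const 1))).congr fun v =>
      Part.mem_some_iff.symm
  | left => exact (SF.eq (.proj 1) (SFn.proj 0).unpair1).congr fun v => Part.mem_some_iff.symm
  | right => exact (SF.eq (.proj 1) (SFn.proj 0).unpair2).congr fun v => Part.mem_some_iff.symm
  | pair _ _ h1 h2 =>
    refine ((h1.mem (.proj 0) (SFn.proj 1).unpair1).and
      (h2.mem (.proj 0) (SFn.proj 1).unpair2)).congr fun v => ?_
    simp only [Seq.seq, Part.map_eq_map, Part.mem_bind_iff, Part.mem_map_iff]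
    constructor
    · rintro ⟨h3, h4⟩
      exact ⟨_, ⟨_, h3, rfl⟩, _, h4, Nat.pair_unpair _⟩
    · rintro ⟨_, ⟨a, h3, rfl⟩, b, h4, h5⟩
      rw [← h5, Nat.unpair_pair]
      exact ⟨h3, h4⟩
  | @comp F G _ _ h1 h2 =>
    exact (SF.ex (S := fun x (v : Fin 2 → ℕ) => x ∈ G (v 0) ∧ v 1 ∈ F x)
      ((h2.mem (.proj _) (.proj _)).and (h1.mem (.proj _) (.proj _)))
      fun _ _ _ h3 h4 => Part.mem_unique h3.1 h4.1).congr fun v => Part.mem_bind_iff.symm
  | prec _ _ h1 h2 => exact Rec.prec hp hq h1 h2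
  | @rfind F _ h =>
    refine ((h.mem ((SFn.proj 0).pair (.proj 1)) (.const 0)).and
      (hq _ (fun m (v : Fin 2 → ℕ) => ∃ x, x + 1 ∈ F (Nat.pair (v 0) m)) _
        (SF.ex (S := fun x (v : Option (Fin 2) → ℕ) => x + 1 ∈ F (Nat.pair (v (some 0)) (v none)))
          (h.mem ((SFn.proj _).pair (.proj _)) ((SFn.proj _).add (.const 1)))
          fun _ _ _ h1 h2 => Nat.succ_injective (Part.mem_unique h1 h2)) (.proj 1))).congr
      fun v => ?_
    rw [Nat.mem_rfind]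
    simp only [Part.map_eq_map, Part.mem_map_iff, decide_eq_true_eq, exists_eq_right,
      decide_eq_false_iff_not]
    refine and_congr_right fun _ => forall₂_congr fun m _ => ⟨fun ⟨x, hx⟩ => ⟨_, hx, by omega⟩, ?_⟩
    rintro ⟨x, h1, h2⟩
    obtain ⟨y, rfl⟩ := Nat.exists_eq_succ_of_ne_zero h2
    exact ⟨y, h1⟩

/-! ### the final form -/

theorem SFn.encode_list {n : ℕ} {u : Fin n → (α → ℕ) → ℕ} (hu : ∀ i, SFn (u i)) :
    SFn fun a => Encodable.encode (List.ofFn fun i => u i a) := by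
  induction n with
  | zero => exact (SFn.const 0).congr fun _ => by simp
  | succ n ih =>
    exact (((hu 0).pair (ih fun i => hu i.succ)).add (.const 1)).congr fun _ => by
      rw [List.ofFn_succ, Encodable.encode_list_cons]; rfl

theorem sf_of_re (h : RecStmt) {n : ℕ} {S : Set (Fin n → ℕ)} (hS : REPred fun a => a ∈ S) :
    SF fun a => a ∈ S := by
  have h' : ∀ F : ℕ →. ℕ, Nat.Partrec F →
      SF fun a : Fin n → ℕ => 0 ∈ F (Encodable.encode (List.ofFn fun i => a i)) :=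
    fun F hF => (h F hF).mem (SFn.encode_list fun i => SFn.proj i) (.const 0)
  refine (h' _ hS).congr fun a => ?_
  have e : Encodable.encode (List.ofFn fun i => a i) =
      @Encodable.encode _ (Primcodable.toEncodable (self := Primcodable.finArrow)) a := by
    change _ = Encodable.encode (List.Vector.ofFn a).toList
    rw [List.Vector.toList_ofFn]
  rw [e, @Encodable.encodek _ (Primcodable.toEncodable (self := Primcodable.finArrow))]
  simpa [Part.mem_assert_iff] using fun _ => ⟨(), rfl⟩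

theorem exists_mv {γ : Type} {p : (γ → ℕ) → ℤ} (h : IsPoly p) :
    ∃ P : MvPolynomial γ ℤ, ∀ v, MvPolynomial.eval (fun i => (v i : ℤ)) P = p v := by
  induction h with
  | proj i => exact ⟨.X i, fun v => by simp⟩
  | const c => exact ⟨.C c, fun v => by simp⟩
  | sub _ _ h1 h2 =>
    obtain ⟨P, hP⟩ := h1
    obtain ⟨Q, hQ⟩ := h2
    exact ⟨P - Q, fun v => by simp [hP, hQ]⟩
  | mul _ _ h1 h2 =>
    obtain ⟨P, hP⟩ := h1
    obtain ⟨Q, hQ⟩ := h2
    exact ⟨P * Q, fun v => by simp [hP, hQ]⟩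

theorem final (h : RecStmt) (n : ℕ) (S : Set (Fin n → ℕ)) (hS : REPred fun a => a ∈ S) :
    ∃ m : ℕ, 1 ≤ m ∧ ∃ P : MvPolynomial (Fin n ⊕ Fin m) ℤ, ∀ a : Fin n → ℕ,
      (a ∈ S → ∃! w : Fin m → ℕ,
        MvPolynomial.eval (Sum.elim (fun i => (a i : ℤ)) (fun j => (w j : ℤ))) P = 0) ∧
      (a ∉ S → ∀ w : Fin m → ℕ,
        MvPolynomial.eval (Sum.elim (fun i => (a i : ℤ)) (fun j => (w j : ℤ))) P ≠ 0) := by
  obtain ⟨β, _, p, hp, H⟩ := sf_of_re h hS
  obtain ⟨k, ⟨e⟩⟩ := Finite.exists_equiv_fin β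
  obtain ⟨P, hP⟩ := exists_mv (IP.add (IP.pow (IP.reindex
    (Sum.map id fun b => (e b).succ : Fin n ⊕ β → Fin n ⊕ Fin (k + 1)) hp) 2) (.proj (.inr 0)))
  have key : ∀ (a : Fin n → ℕ) (w : Fin (k + 1) → ℕ),
      MvPolynomial.eval (Sum.elim (fun i => (a i : ℤ)) (fun j => (w j : ℤ))) P = 0 ↔
        p (Sum.elim a fun b => w (e b).succ) = 0 ∧ w 0 = 0 := fun a w => by
    have e1 : (Sum.elim (fun i => (a i : ℤ)) (fun j => (w j : ℤ))) =
        fun i => ((Sum.elim a w i : ℕ) : ℤ) := by funext i; cases i <;> rfl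
    rw [e1, hP, add_eq_zero_iff_of_nonneg (sq_nonneg _) (by positivity), sq_eq_zero_iff,
      Nat.cast_eq_zero]
    congr! 3
    funext i; cases i <;> rfl
  refine ⟨k + 1, by omega, P, fun a =>
    ⟨fun ha => ?_, fun ha w hw => ha ((H a).1.2 ⟨_, ((key a w).1 hw).1⟩)⟩⟩
  obtain ⟨w, hw⟩ := (H a).1.1 ha
  refine ⟨Fin.cons 0 fun j => w (e.symm j), (key _ _).2 ⟨by simpa using hw, rfl⟩, fun w' hw' => ?_⟩
  obtain ⟨h1, h2⟩ := (key _ _).1 hw'
  have h3 := (H a).2 _ _ h1 hw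
  funext j
  refine Fin.cases h2 (fun j => ?_) j
  simp [← h3]

end Crest.Agent.R323
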